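import Mathlib

/-! A parent map for an acyclic graph. -/

namespace Vale.Agent.P064.Tree

open Finset SimpleGraph
open scoped Classical

lemma acyclic_parent {V : Type*} (G : SimpleGraph V) (hG : G.IsAcyclic) :
    ∃ (par : V → Option V) (d : V → ℕ),
      (∀ u w, par u = some w → G.Adj u w ∧ d u = d w + 1) ∧
      ∀ u w, G.Adj u w → par u = some w ∨ par w = some u := by
  set r : V → V := fun u => (G.connectedComponentMk u).out with hr
  have hreach : ∀ u, G.Reachable (r u) u := fun u =>
    ConnectedComponent.exact (G.connectedComponentMk u).out_eq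
  set P : ∀ u, G.Walk (r u) u := fun u => ((hreach u).some.toPath : G.Path (r u) u).1 with hP
  have hPp : ∀ u, (P u).IsPath := fun u => ((hreach u).some.toPath : G.Path (r u) u).2
  have huniq : ∀ {a b : V} (p p' : G.Walk a b), p.IsPath → p'.IsPath → p = p' :=
    fun p p' hp hp' => congrArg Subtype.val ((hG.subsingleton_path _ _).elim ⟨p, hp⟩ ⟨p', hp'⟩)
  set d : V → ℕ := fun u => (P u).length with hd
  set par : V → Option V := fun u => if (P u).Nil then none else some (P u).penultimate with hpar
  have hroot : ∀ {u w : V}, G.Adj u w → r u = r w := fun h => by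
    simp only [hr, ConnectedComponent.connectedComponentMk_eq_of_adj h]
  have hmain : ∀ u w, G.Adj u w →
      (par u = some w ∧ d u = d w + 1) ∨ (par w = some u ∧ d w = d u + 1) := by
    intro u w h
    set Q : G.Walk (r u) w := (P w).copy (hroot h).symm rfl with hQ
    have hQp : Q.IsPath := by rw [hQ, Walk.isPath_copy]; exact hPp w
    have hQl : Q.length = d w := by rw [hQ, Walk.length_copy]
    by_cases hmem : u ∈ Q.support
    · right
      have h1 : Q.takeUntil u hmem = P u := huniq _ _ (hQp.takeUntil hmem) (hPp u)
      have h2 : Q.dropUntil u hmem = Walk.cons h Walk.nil :=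
        huniq _ _ (hQp.dropUntil hmem) (by simp [Walk.isPath_def, h.ne])
      have h3 : Q = (P u).concat h := by
        rw [Walk.concat_eq_append, ← h1, ← h2, Walk.take_spec]
      have h4 : ¬(P w).Nil := by
        rw [← Walk.length_eq_zero_iff, ← Walk.length_copy (P w) (hroot h).symm rfl, ← hQ, h3,
          Walk.length_concat]
        omega
      refine ⟨?_, ?_⟩
      · simp only [hpar, if_neg h4, Option.some.injEq]
        have : Q.penultimate = (P w).penultimate := by
          rw [hQ]; simp [Walk.penultimate, Walk.getVert_copy, Walk.length_copy]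
        rw [← this, h3, Walk.penultimate_concat]
      · rw [← hQl, h3, Walk.length_concat]
    · left
      have h3 : P u = Q.concat h.symm := huniq _ _ (hPp u) (hQp.concat hmem h.symm)
      have h4 : ¬(P u).Nil := by
        rw [← Walk.length_eq_zero_iff, h3, Walk.length_concat]; omega
      refine ⟨?_, ?_⟩
      · simp only [hpar, if_neg h4, Option.some.injEq]
        rw [h3, Walk.penultimate_concat]
      · rw [← hQl]; simp only [hd]; rw [h3, Walk.length_concat]
  refine ⟨par, d, fun u w hw => ?_, fun u w h => (hmain u w h).imp And.left And.left⟩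
  simp only [hpar] at hw
  by_cases hnil : (P u).Nil
  · rw [if_pos hnil] at hw; exact absurd hw (by simp)
  rw [if_neg hnil, Option.some.injEq] at hw
  have hadj : G.Adj u w := by rw [← hw]; exact ((P u).adj_penultimate hnil).symm
  refine ⟨hadj, ?_⟩
  rcases hmain u w hadj with h | ⟨-, hdw⟩
  · exact h.2
  · exfalso
    have hmem : w ∈ (P u).support := by rw [← hw]; exact (P u).getVert_mem_support _
    set T : G.Walk (r w) w := ((P u).takeUntil w hmem).copy (hroot hadj) rfl with hT
    have hTp : T.IsPath := by rw [hT, Walk.isPath_copy]; exact (hPp u).takeUntil hmem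
    have := huniq _ _ hTp (hPp w)
    have hl := (P u).length_takeUntil_le_length hmem
    have : d w ≤ d u := by
      simp only [hd]
      rw [← this, hT, Walk.length_copy]; exact hl
    omega

end Vale.Agent.P064.Tree
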