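import Vale.Agent.P064.Tree.Host

/-! Labelled rooted forests from an elimination order with small back sets. -/

namespace Vale.Agent.P064.Tree

open Finset
open scoped Classical

variable {n K : ℕ}

/-- The last vertex of a set. -/
noncomputable def topOf (ord : Fin n → ℕ) (S : Finset (Fin n)) : Option (Fin n) :=
  if h : S.Nonempty then some (Finset.exists_max_image S ord h).choose else none

lemma topOf_spec {ord : Fin n → ℕ} {S : Finset (Fin n)} {z : Fin n} (h : topOf ord S = some z) :
    z ∈ S ∧ ∀ w ∈ S, ord w ≤ ord z := by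
  unfold topOf at h
  split at h
  · rename_i hS
    rw [Option.some.injEq] at h
    exact h ▸ (Finset.exists_max_image S ord hS).choose_spec
  · exact absurd h (by simp)

lemma topOf_eq_none {ord : Fin n → ℕ} {S : Finset (Fin n)} : topOf ord S = none ↔ S = ∅ := by
  unfold topOf
  split
  · rename_i hS; simp [hS.ne_empty]
  · rename_i hS; simp [Finset.not_nonempty_iff_eq_empty.1 hS]

/-- An elimination order: back sets of size at most `K`, closed as cliques, containing all earlier
neighbours. -/
structure Elim (E : Finset (Sym2 (Fin n))) (K : ℕ) where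
  /-- the position in the order -/
  ord : Fin n → ℕ
  /-- the back set -/
  back : Fin n → Finset (Fin n)
  hord : Function.Injective ord
  hcard : ∀ v, (back v).card ≤ K
  hback : ∀ v, ∀ w ∈ back v, ord w < ord v
  hclique : ∀ v, ∀ a ∈ back v, ∀ b ∈ back v, ord a < ord b → a ∈ back b
  hcover : ∀ u v, s(u, v) ∈ E → ord u < ord v → u ∈ back v
  hloop : ∀ u, s(u, u) ∉ E

variable {E : Finset (Sym2 (Fin n))}

/-- A choice of active back vertices, closed towards the parent. -/
structure Choice (el : Elim E K) where
  /-- the active set -/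
  act : Fin n → Finset (Fin n)
  hsub : ∀ y, act y ⊆ el.back y
  hclosed : ∀ y z, topOf el.ord (act y) = some z → (act y).erase z ⊆ act z

namespace Choice

variable {el : Elim E K} (A : Choice el)

/-- The context of a vertex. -/
noncomputable def cxt (y : Fin n) (j : Fin K) : Fin n :=
  (topOf el.ord (A.act y)).elim y fun z => (A.act y).toList.getD j z

/-- The position of an active vertex. -/
noncomputable def pos (y w : Fin n) : Option (Fin K) :=
  if h : ∃ j, A.cxt y j = w then some h.choose else none

lemma cxt_root {y : Fin n} (h : topOf el.ord (A.act y) = none) (j : Fin K) : A.cxt y j = y := by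
  simp [cxt, h]

lemma cxt_mem {y z : Fin n} (h : topOf el.ord (A.act y) = some z) (j : Fin K) :
    A.cxt y j ∈ A.act y := by
  simp only [cxt, h, Option.elim_some]
  rcases lt_or_ge (j : ℕ) (A.act y).toList.length with hj | hj
  · rw [List.getD_eq_getElem _ _ hj]
    exact Finset.mem_toList.1 (List.getElem_mem hj)
  · rw [List.getD_eq_default _ _ hj]
    exact (topOf_spec h).1

lemma act_card (y : Fin n) : (A.act y).card ≤ K :=
  (Finset.card_le_card (A.hsub y)).trans (el.hcard y)

lemma exists_pos {y w : Fin n} (hw : w ∈ A.act y) : ∃ j, A.cxt y j = w := by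
  obtain ⟨z, hz⟩ : ∃ z, topOf el.ord (A.act y) = some z :=
    Option.ne_none_iff_exists'.1 fun h => by
      rw [topOf_eq_none.1 h] at hw; exact absurd hw (Finset.notMem_empty w)
  obtain ⟨i, hi, hiw⟩ := List.mem_iff_getElem.1 (Finset.mem_toList.2 hw)
  have hiK : i < K := by
    have := A.act_card y
    rw [← Finset.length_toList] at this
    omega
  refine ⟨⟨i, hiK⟩, ?_⟩
  simp only [cxt, hz, Option.elim_some]
  rw [List.getD_eq_getElem _ _ hi, hiw]

/-- Positions with the same non-parent value coincide. -/
lemma cxt_inj {y z : Fin n} (h : topOf el.ord (A.act y) = some z) {i j : Fin K}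
    (hij : A.cxt y i = A.cxt y j) (hne : A.cxt y i ≠ z) : i = j := by
  simp only [cxt, h, Option.elim_some] at hij hne
  have hlen : ∀ l : Fin K, (A.act y).toList.getD l z ≠ z → (l : ℕ) < (A.act y).toList.length := by
    intro l hl
    by_contra hc
    exact hl (List.getD_eq_default _ _ (not_lt.1 hc))
  have h1 := hlen i hne
  have h2 := hlen j (hij ▸ hne)
  rw [List.getD_eq_getElem _ _ h1, List.getD_eq_getElem _ _ h2] at hij
  exact Fin.ext ((Finset.nodup_toList _).getElem_inj_iff.1 hij)

lemma pos_spec {y w : Fin n} (hw : w ∈ A.act y) : ∃ j, A.pos y w = some j ∧ A.cxt y j = w := by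
  have hex := A.exists_pos hw
  exact ⟨hex.choose, by rw [pos, dif_pos hex], hex.choose_spec⟩

/-- The active earlier neighbours. -/
noncomputable def nbrs (y : Fin n) : Finset (Fin n) := (A.act y).filter fun w => s(y, w) ∈ E

/-- The label of a vertex. -/
noncomputable def label (y : Fin n) : Lb K :=
  (fun j => (topOf el.ord (A.act y)).elim none fun z =>
      if A.cxt y j = z then none else A.pos z (A.cxt y j),
    Finset.univ.filter fun j => ∃ w ∈ A.nbrs y, A.pos y w = some j)

lemma label_edge {y : Fin n} {j : Fin K} (hj : j ∈ (A.label y).2) :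
    A.cxt y j ∈ A.nbrs y ∧ A.pos y (A.cxt y j) = some j := by
  obtain ⟨w, hw, hp⟩ := (Finset.mem_filter.1 hj).2
  obtain ⟨i, hi, hiw⟩ := A.pos_spec (Finset.mem_filter.1 hw).1
  rw [hp, Option.some.injEq] at hi
  subst hi
  rw [hiw]
  exact ⟨hw, hp⟩

/-- The labelled rooted forest of a choice. -/
noncomputable def host : Host E K where
  par y := topOf el.ord (A.act y)
  dp := el.ord
  lab := A.label
  cx := A.cxt
  hdp u w h := el.hback u w (A.hsub u (topOf_spec h).1)
  hcx u w h := by
    funext j
    simp only [nxt, label, h, Option.elim_some]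
    by_cases hj : A.cxt u j = w
    · rw [if_pos hj]; exact hj
    · rw [if_neg hj]
      obtain ⟨i, hi, hiw⟩ := A.pos_spec
        (A.hclosed u w h (Finset.mem_erase.2 ⟨hj, A.cxt_mem h j⟩))
      rw [hi]
      exact hiw.symm
  hroot u h := funext fun j => A.cxt_root h j
  hlow u j hj := el.hback u _ (A.hsub u (Finset.mem_filter.1 (A.label_edge hj).1).1)
  hinj u i hi j hj hij := by
    have h1 := (A.label_edge hi).2
    have h2 := (A.label_edge hj).2
    rw [hij, h2, Option.some.injEq] at h1
    exact h1.symm
  hedge u j hj := (Finset.mem_filter.1 (A.label_edge hj).1).2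

lemma edge_owned {y w : Fin n} (hw : w ∈ A.act y) (he : s(y, w) ∈ E) :
    s(y, w) ∈ A.host.edges y := by
  obtain ⟨j, hj, hjw⟩ := A.pos_spec hw
  refine Finset.mem_image.2 ⟨j, Finset.mem_filter.2 ⟨Finset.mem_univ _, w,
    Finset.mem_filter.2 ⟨hw, he⟩, hj⟩, ?_⟩
  show s(y, A.cxt y j) = s(y, w)
  rw [hjw]

end Choice

/-! ### The active sets forced by an edge set -/

lemma mem_later {ord : Fin n → ℕ} {y y' : Fin n}
    (h : y' ∈ Finset.univ.filter fun y' => ord y < ord y') : ord y < ord y' :=
  (Finset.mem_filter.1 h).2

/-- The back vertices that a copy with edge set `W` uses at `y`. -/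
noncomputable def forced (el : Elim E K) (W : Finset (Sym2 (Fin n))) (y : Fin n) :
    Finset (Fin n) :=
  ((el.back y).filter fun w => s(y, w) ∈ W) ∪
    (Finset.univ.filter fun y' => el.ord y < el.ord y').attach.biUnion fun y' =>
      if topOf el.ord (forced el W y'.1) = some y then (forced el W y'.1).erase y else ∅
  termination_by Finset.univ.sup el.ord - el.ord y
  decreasing_by
    all_goals
      have h := mem_later y'.2
      have := Finset.le_sup (f := el.ord) (Finset.mem_univ y'.1)
      omega

lemma forced_mem {el : Elim E K} {W : Finset (Sym2 (Fin n))} {y w : Fin n}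
    (hw : w ∈ forced el W y) :
    (w ∈ el.back y ∧ s(y, w) ∈ W) ∨ ∃ y', el.ord y < el.ord y' ∧
      topOf el.ord (forced el W y') = some y ∧ w ∈ (forced el W y').erase y := by
  rw [forced] at hw
  rcases Finset.mem_union.1 hw with h | h
  · exact Or.inl (Finset.mem_filter.1 h)
  · obtain ⟨y', -, hy'⟩ := Finset.mem_biUnion.1 h
    by_cases hc : topOf el.ord (forced el W y'.1) = some y
    · rw [if_pos hc] at hy'
      exact Or.inr ⟨y'.1, mem_later y'.2, hc, hy'⟩
    · rw [if_neg hc] at hy'
      exact absurd hy' (Finset.notMem_empty w)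

lemma forced_edge {el : Elim E K} {W : Finset (Sym2 (Fin n))} {y w : Fin n}
    (hw : w ∈ el.back y) (he : s(y, w) ∈ W) : w ∈ forced el W y := by
  rw [forced]
  exact Finset.mem_union_left _ (Finset.mem_filter.2 ⟨hw, he⟩)

lemma forced_sub (el : Elim E K) (W : Finset (Sym2 (Fin n))) :
    ∀ y, forced el W y ⊆ el.back y := by
  suffices h : ∀ d y, Finset.univ.sup el.ord - el.ord y = d → forced el W y ⊆ el.back y from
    fun y => h _ y rfl
  intro d
  induction d using Nat.strong_induction_on with
  | _ d ih =>
    intro y hd w hw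
    rcases forced_mem hw with ⟨h, -⟩ | ⟨y', hlt, htop, hwe⟩
    · exact h
    · have := Finset.le_sup (f := el.ord) (Finset.mem_univ y')
      have hsub := ih _ (by omega) y' rfl
      obtain ⟨hne, hwm⟩ := Finset.mem_erase.1 hwe
      have hle := (topOf_spec htop).2 w hwm
      have : el.ord w ≠ el.ord y := fun h => hne (el.hord h)
      exact el.hclique y' w (hsub hwm) y (hsub (topOf_spec htop).1) (by omega)

lemma forced_closed {el : Elim E K} {W : Finset (Sym2 (Fin n))} {y z : Fin n}
    (h : topOf el.ord (forced el W y) = some z) :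
    (forced el W y).erase z ⊆ forced el W z := by
  intro w hw
  rw [forced.eq_def el W z]
  have hlt := el.hback y z (forced_sub el W y (topOf_spec h).1)
  refine Finset.mem_union_right _ (Finset.mem_biUnion.2
    ⟨⟨y, Finset.mem_filter.2 ⟨Finset.mem_univ _, hlt⟩⟩, Finset.mem_attach _ _, ?_⟩)
  rw [if_pos h]
  exact hw

lemma forced_support (el : Elim E K) (W : Finset (Sym2 (Fin n))) :
    ∀ y, ∀ w ∈ forced el W y, w ∈ BDeg.vset W ∧ y ∈ BDeg.vset W := by
  suffices h : ∀ d y, Finset.univ.sup el.ord - el.ord y = d →
      ∀ w ∈ forced el W y, w ∈ BDeg.vset W ∧ y ∈ BDeg.vset W from fun y => h _ y rfl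
  intro d
  induction d using Nat.strong_induction_on with
  | _ d ih =>
    intro y hd w hw
    rcases forced_mem hw with ⟨-, h⟩ | ⟨y', hlt, htop, hwe⟩
    · exact ⟨BDeg.mem_vset.2 ⟨_, h, Sym2.mem_mk_right y w⟩,
        BDeg.mem_vset.2 ⟨_, h, Sym2.mem_mk_left y w⟩⟩
    · have := Finset.le_sup (f := el.ord) (Finset.mem_univ y')
      have h' := ih _ (by omega) y' rfl
      exact ⟨(h' w (Finset.mem_erase.1 hwe).2).1, (h' y (topOf_spec htop).1).1⟩

/-! ### Pruning an arbitrary choice -/

/-- The parent chain of `y` is closed. -/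
inductive Closed (el : Elim E K) (a : Fin n → Finset (Fin n)) : Fin n → Prop
  | root {y} : a y = ∅ → Closed el a y
  | step {y z} : topOf el.ord (a y) = some z → (a y).erase z ⊆ a z → Closed el a z → Closed el a y

/-- Every choice of subsets of the back sets, pruned to a closed one. -/
noncomputable def prune (el : Elim E K) (a : Fin n → Finset (Fin n))
    (ha : ∀ y, a y ⊆ el.back y) : Choice el where
  act y := if Closed el a y then a y else ∅
  hsub y := by
    split
    · exact ha y
    · exact Finset.empty_subset _
  hclosed y z h := by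
    split at h
    · rename_i hc
      rw [if_pos hc]
      cases hc with
      | root h0 => rw [h0] at h; rw [topOf_eq_none.2 rfl] at h; exact absurd h (by simp)
      | step h1 h2 h3 =>
        rw [h1, Option.some.injEq] at h
        subst h
        rw [if_pos h3]
        exact h2
    · rw [topOf_eq_none.2 rfl] at h; exact absurd h (by simp)

lemma closed_of_forced (el : Elim E K) {W : Finset (Sym2 (Fin n))} {a : Fin n → Finset (Fin n)}
    (ha : ∀ y ∈ BDeg.vset W, a y = forced el W y) : ∀ y ∈ BDeg.vset W, Closed el a y := by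
  suffices h : ∀ d, ∀ y ∈ BDeg.vset W, el.ord y = d → Closed el a y from
    fun y hy => h _ y hy rfl
  intro d
  induction d using Nat.strong_induction_on with
  | _ d ih =>
    intro y hy hd
    rcases htop : topOf el.ord (forced el W y) with _ | z
    · exact .root (by rw [ha y hy]; exact topOf_eq_none.1 htop)
    · have hz := (forced_support el W y z (topOf_spec htop).1).1
      refine .step (z := z) (by rw [ha y hy]; exact htop) ?_ (ih _ ?_ z hz rfl)
      · rw [ha y hy, ha z hz]; exact forced_closed htop
      · rw [← hd]; exact el.hback y z (forced_sub el W y (topOf_spec htop).1)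

end Vale.Agent.P064.Tree
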