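import Vale.Agent.P064.Tree.Pattern
import Vale.Agent.P064.Tree.Elim

/-! Translates of any edge set inside a sparse edge set with an elimination order. -/

namespace Vale.Agent.P064.Tree

open Finset
open scoped Classical Pointwise

variable {n K : ℕ} {E : Finset (Sym2 (Fin n))}

/-- Steps to the root. -/
noncomputable def hdepth (h : Host E K) (u : Fin n) : ℕ :=
  match hp : h.par u with
  | none => 0
  | some w => hdepth h w + 1
  termination_by h.dp u
  decreasing_by exact h.hdp _ _ hp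

lemma hdepth_succ (h : Host E K) {u w : Fin n} (hw : h.par u = some w) :
    hdepth h u = hdepth h w + 1 := by
  rw [hdepth]
  split
  · rename_i hp; rw [hw] at hp; exact absurd hp (by simp)
  · rename_i w' hp
    rw [hw, Option.some.injEq] at hp
    rw [hp]

variable {F : Finset (Sym2 (Fin n))}

lemma out_mem (e : F) : e.1.out.1 ∈ BDeg.vset F ∧ e.1.out.2 ∈ BDeg.vset F :=
  ⟨BDeg.mem_vset.2 ⟨e.1, e.2, Sym2.out_fst_mem e.1⟩,
    BDeg.mem_vset.2 ⟨e.1, e.2, Sym2.out_snd_mem e.1⟩⟩

/-- The first endpoint. -/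
noncomputable def endA (e : F) : ↥(BDeg.vset F) := ⟨e.1.out.1, (out_mem e).1⟩

/-- The second endpoint. -/
noncomputable def endB (e : F) : ↥(BDeg.vset F) := ⟨e.1.out.2, (out_mem e).2⟩

/-- The edge set of a placement. -/
noncomputable def imgE (f : ↥(BDeg.vset F) → Fin n) : Finset (Sym2 (Fin n)) :=
  Finset.univ.image fun e : F => s(f (endA e), f (endB e))

lemma mk_mem_imgE {f : ↥(BDeg.vset F) → Fin n} {x y : ↥(BDeg.vset F)} (h : s(x.1, y.1) ∈ F) :
    s(f x, f y) ∈ imgE f := by
  refine Finset.mem_image.2 ⟨⟨_, h⟩, Finset.mem_univ _, ?_⟩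
  have hout : s((endA ⟨_, h⟩).1, (endB ⟨_, h⟩).1) = s(x.1, y.1) := Quot.out_eq _
  rcases Sym2.eq_iff.1 hout with ⟨h1, h2⟩ | ⟨h1, h2⟩
  · rw [Subtype.ext h1, Subtype.ext h2]
  · rw [Subtype.ext h1, Subtype.ext h2, Sym2.eq_swap]

lemma of_mk_mem_imgE {f : ↥(BDeg.vset F) → Fin n} (hf : Function.Injective f)
    {x y : ↥(BDeg.vset F)} (h : s(f x, f y) ∈ imgE f) : s(x.1, y.1) ∈ F := by
  obtain ⟨e, -, he⟩ := Finset.mem_image.1 h
  have hout : s((endA e).1, (endB e).1) = e.1 := Quot.out_eq _
  rcases Sym2.eq_iff.1 he with ⟨h1, h2⟩ | ⟨h1, h2⟩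
  · rw [← hf h1, ← hf h2, hout]; exact e.2
  · rw [← hf h1, ← hf h2, Sym2.eq_swap, hout]; exact e.2

lemma imgE_card {f : ↥(BDeg.vset F) → Fin n} (hf : Function.Injective f) :
    (imgE f).card = F.card := by
  rw [imgE, Finset.card_image_of_injective _ fun e e' h => ?_, Finset.card_univ, Fintype.card_coe]
  refine Subtype.ext ?_
  have h1 : s((endA e).1, (endB e).1) = e.1 := Quot.out_eq _
  have h2 : s((endA e').1, (endB e').1) = e'.1 := Quot.out_eq _
  rw [← h1, ← h2]
  rcases Sym2.eq_iff.1 h with ⟨a, b⟩ | ⟨a, b⟩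
  · rw [hf a, hf b]
  · rw [hf a, hf b, Sym2.eq_swap]

lemma mem_vset_imgE {f : ↥(BDeg.vset F) → Fin n} {w : Fin n} (h : w ∈ BDeg.vset (imgE f)) :
    ∃ x, f x = w := by
  obtain ⟨e, he, hwe⟩ := BDeg.mem_vset.1 h
  obtain ⟨e', -, rfl⟩ := Finset.mem_image.1 he
  rcases Sym2.mem_iff.1 hwe with rfl | rfl
  · exact ⟨_, rfl⟩
  · exact ⟨_, rfl⟩

lemma vset_imgE (f : ↥(BDeg.vset F) → Fin n) (x : ↥(BDeg.vset F)) :
    f x ∈ BDeg.vset (imgE f) := by
  obtain ⟨e, he, hxe⟩ := BDeg.mem_vset.1 x.2
  obtain ⟨b, rfl⟩ := hxe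
  have hb : b ∈ BDeg.vset F := BDeg.mem_vset.2 ⟨_, he, Sym2.mem_mk_right _ _⟩
  exact BDeg.mem_vset.2
    ⟨_, mk_mem_imgE (f := f) (y := ⟨b, hb⟩) he, Sym2.mem_mk_left _ _⟩

variable {el : Elim E K}

/-- A placement fitting a choice of active sets. -/
structure Fits (A : Choice el) (f : ↥(BDeg.vset F) → Fin n) : Prop where
  inj : Function.Injective f
  edge : ∀ e ∈ imgE f, e ∈ E
  act : ∀ x, A.act (f x) = forced el (imgE f) (f x)

/-- What is recorded about a placement. -/
noncomputable def code (A : Choice el) (f : ↥(BDeg.vset F) → Fin n) :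
    (↥(BDeg.vset F) → Lb K × Bool) × (F → Bool × Option (Fin K) × Option (Fin K)) :=
  (fun x => (A.label (f x), decide (topOf el.ord (A.act (f x)) = none)),
   fun e => (decide (el.ord (f (endA e)) < el.ord (f (endB e))),
    A.pos (f (endA e)) (f (endB e)), A.pos (f (endB e)) (f (endA e))))

lemma code_edge {A : Choice el} {f₀ f : ↥(BDeg.vset F) → Fin n} (h₀ : Fits A f₀) (h : Fits A f)
    (hc : code A f = code A f₀) {x y : ↥(BDeg.vset F)} (hxy : s(x.1, y.1) ∈ F)
    (hlt : el.ord (f₀ y) < el.ord (f₀ x)) :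
    el.ord (f y) < el.ord (f x) ∧ A.pos (f x) (f y) = A.pos (f₀ x) (f₀ y) := by
  have he := congrFun (congrArg Prod.snd hc) ⟨_, hxy⟩
  simp only [code, Prod.mk.injEq, decide_eq_decide] at he
  obtain ⟨hb, hp, hp'⟩ := he
  have hout : s((endA ⟨_, hxy⟩).1, (endB ⟨_, hxy⟩).1) = s(x.1, y.1) := Quot.out_eq _
  have hne : el.ord (f x) ≠ el.ord (f y) := fun hh => by
    have := h₀.inj.eq_iff.2 (h.inj (el.hord hh))
    rw [this] at hlt
    exact lt_irrefl _ hlt
  rcases Sym2.eq_iff.1 hout with ⟨h1, h2⟩ | ⟨h1, h2⟩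
  · rw [Subtype.ext h1, Subtype.ext h2] at hb hp
    refine ⟨?_, hp⟩
    have : ¬ el.ord (f x) < el.ord (f y) := fun hh => by have := hb.1 hh; omega
    omega
  · rw [Subtype.ext h1, Subtype.ext h2] at hb hp'
    exact ⟨hb.2 hlt, hp'⟩

lemma code_determines {A : Choice el} {f₀ f : ↥(BDeg.vset F) → Fin n} (h₀ : Fits A f₀)
    (h : Fits A f) (hc : code A f = code A f₀) :
    ∀ (d : ℕ) (x p : ↥(BDeg.vset F)), Finset.univ.sup el.ord - el.ord (f₀ x) = d →
      A.host.par (f₀ x) = some (f₀ p) →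
      A.host.par (f x) = some (f p) ∧ ∀ w j, A.cxt (f₀ x) j = f₀ w → A.cxt (f x) j = f w := by
  intro d
  induction d using Nat.strong_induction_on with
  | _ d ih =>
  intro x p hd hp
  have hlab : ∀ y, A.label (f y) = A.label (f₀ y) := fun y =>
    congrArg Prod.fst (congrFun (congrArg Prod.fst hc) y)
  have hp' : topOf el.ord (A.act (f₀ x)) = some (f₀ p) := hp
  have hmem : ∀ w, f₀ w ∈ A.act (f₀ x) → ∃ j, A.cxt (f₀ x) j = f₀ w ∧ A.cxt (f x) j = f w := by
    intro w hw
    rw [h₀.act] at hw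
    rcases forced_mem hw with ⟨hb, he⟩ | ⟨y', hlt, htop, hwe⟩
    · have hxy := of_mk_mem_imgE h₀.inj he
      obtain ⟨hlt', hpos⟩ := code_edge h₀ h hc hxy (el.hback _ _ hb)
      have he' := mk_mem_imgE (f := f) hxy
      have hb' : f w ∈ el.back (f x) :=
        el.hcover _ _ (by rw [Sym2.eq_swap]; exact h.edge _ he') hlt'
      have hm : f w ∈ A.act (f x) := by rw [h.act]; exact forced_edge hb' he'
      have hm₀ : f₀ w ∈ A.act (f₀ x) := by rw [h₀.act]; exact hw
      obtain ⟨j, hj, hjw⟩ := A.pos_spec hm₀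
      obtain ⟨i, hi, hiw⟩ := A.pos_spec hm
      rw [hpos, hj, Option.some.injEq] at hi
      exact ⟨j, hjw, hi ▸ hiw⟩
    · obtain ⟨y, rfl⟩ := mem_vset_imgE (forced_support el _ y' _ (topOf_spec htop).1).2
      have hpy : A.host.par (f₀ y) = some (f₀ x) := by
        show topOf el.ord (A.act (f₀ y)) = _
        rw [h₀.act]; exact htop
      have := Finset.le_sup (f := el.ord) (Finset.mem_univ (f₀ y))
      obtain ⟨hpy', hcy⟩ := ih _ (by omega) y x rfl hpy
      have hm₀ : f₀ w ∈ A.act (f₀ y) := by rw [h₀.act]; exact (Finset.mem_erase.1 hwe).2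
      obtain ⟨i, hi⟩ := A.exists_pos hm₀
      have hiw := hcy w i hi
      have e₀ := congrFun (A.host.hcx _ _ hpy) i
      have e₁ := congrFun (A.host.hcx _ _ hpy') i
      change A.cxt (f₀ y) i = nxt (A.label (f₀ y)) (A.cxt (f₀ x)) (f₀ x) i at e₀
      change A.cxt (f y) i = nxt (A.label (f y)) (A.cxt (f x)) (f x) i at e₁
      rw [hi] at e₀
      rw [hiw, hlab y] at e₁
      rcases hl : (A.label (f₀ y)).1 i with _ | l
      · simp only [nxt, hl, Option.map_none, Option.getD_none] at e₀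
        exact absurd e₀ (Finset.mem_erase.1 hwe).1
      · simp only [nxt, hl, Option.map_some, Option.getD_some] at e₀ e₁
        exact ⟨l, e₀.symm, e₁.symm⟩
  have hroot : topOf el.ord (A.act (f x)) ≠ none := by
    intro hh
    have := congrArg Prod.snd (congrFun (congrArg Prod.fst hc) x)
    simp [code, hh, hp'] at this
  obtain ⟨z, hz⟩ := Option.ne_none_iff_exists'.1 hroot
  have hnone : ∀ j, A.cxt (f₀ x) j = f₀ p → A.cxt (f x) j = z := by
    intro j hj
    have e₁ := congrFun (A.host.hcx (f x) z hz) j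
    change A.cxt (f x) j = nxt (A.label (f x)) (A.cxt z) z j at e₁
    have hl : (A.label (f₀ x)).1 j = none := by simp [Choice.label, hp', hj]
    rw [e₁, hlab x]
    simp [nxt, hl]
  obtain ⟨jp, hjp, hjp'⟩ := hmem p (topOf_spec hp').1
  have hzp : z = f p := (hnone jp hjp).symm.trans hjp'
  refine ⟨by rw [← hzp]; exact hz, fun w j hj => ?_⟩
  by_cases hwp : w = p
  · rw [hwp] at hj ⊢
    rw [hnone j hj, hzp]
  · obtain ⟨i, hi, hi'⟩ := hmem w (hj ▸ A.cxt_mem hp' j)
    have : j = i := A.cxt_inj hp' (hj.trans hi.symm) (by rw [hj]; exact fun e => hwp (h₀.inj e))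
    rw [this]; exact hi'

/-- The constant lost per vertex in one code class. -/
noncomputable def vtxConst (K : ℕ) : ℝ := stepConst * (Fintype.card (Lb K) : ℝ) ^ 3 * 48

lemma vtxConst_pos (K : ℕ) : 0 < vtxConst K := by
  have := stepConst_pos
  have : (0 : ℝ) < Fintype.card (Lb K) := by exact_mod_cast Fintype.card_pos
  unfold vtxConst
  positivity

lemma class_count {q : ℝ} (hq : 0 < q) (hq1 : q ≤ 1) (hn : 0 < n)
    (hE : Sparse (Equiv.Perm (Fin n)) q E) (A : Choice el)
    (Rs : Finset (↥(BDeg.vset F) → Fin n)) (hfit : ∀ f ∈ Rs, Fits A f)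
    (c : (↥(BDeg.vset F) → Lb K × Bool) × (F → Bool × Option (Fin K) × Option (Fin K))) :
    ((Rs.filter fun f => code A f = c).card : ℝ) ≤
      vtxConst K ^ (BDeg.vset F).card * (n : ℝ) ^ (BDeg.vset F).card * q ^ F.card := by
  have hG := vtxConst_pos K
  rcases (Rs.filter fun f => code A f = c).eq_empty_or_nonempty with hemp | ⟨f₀, hf₀⟩
  · rw [hemp, Finset.card_empty, Nat.cast_zero]; positivity
  obtain ⟨hf₀R, hf₀c⟩ := Finset.mem_filter.1 hf₀
  have h₀ := hfit f₀ hf₀R
  have hin : ∀ x z, A.host.par (f₀ x) = some z → ∃ p, f₀ p = z := by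
    intro x z hz
    have hm := (topOf_spec (show topOf el.ord (A.act (f₀ x)) = some z from hz)).1
    rw [h₀.act] at hm
    exact mem_vset_imgE (forced_support el _ _ _ hm).1
  set π : ↥(BDeg.vset F) → Option ↥(BDeg.vset F) := fun x =>
    if hx : ∃ p, A.host.par (f₀ x) = some (f₀ p) then some hx.choose else none with hπ
  have hπs : ∀ x p, π x = some p → A.host.par (f₀ x) = some (f₀ p) := by
    intro x p hxp
    simp only [hπ] at hxp
    split at hxp
    · rename_i hex
      rw [Option.some.injEq] at hxp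
      exact hxp ▸ hex.choose_spec
    · exact absurd hxp (by simp)
  have hπn : ∀ x, π x = none → A.host.par (f₀ x) = none := by
    intro x hx
    rcases hp : A.host.par (f₀ x) with _ | z
    · rfl
    · obtain ⟨p, rfl⟩ := hin x z hp
      have hex : ∃ p, A.host.par (f₀ x) = some (f₀ p) := ⟨p, hp⟩
      simp only [hπ, dif_pos hex] at hx
      exact absurd hx (by simp)
  set σ : ↥(BDeg.vset F) → Lb K := fun x => A.label (f₀ x) with hσ
  have hlamE : ∀ l : Lb K, 0 < lamE n q l := fun l => by unfold lamE; positivity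
  have hpl := placements_le A.host.par A.host.lab hlamE hn (pot_sum_le hq hE hn A.host) π σ
    (fun x => hdepth A.host (f₀ x)) (fun x y hxy => hdepth_succ _ (hπs x y hxy))
  refine le_trans ?_ (le_trans hpl ?_)
  · refine Nat.cast_le.2 (Finset.card_le_card fun f hf => ?_)
    obtain ⟨hfR, hfc⟩ := Finset.mem_filter.1 hf
    have hc := hfc.trans hf₀c.symm
    have h := hfit f hfR
    simp only [Finset.mem_filter, Finset.mem_univ, true_and]
    refine ⟨h.inj, fun x y hxy => (code_determines h₀ h hc _ x y rfl (hπs x y hxy)).1,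
      fun x => ⟨fun hx => ?_, congrArg Prod.fst (congrFun (congrArg Prod.fst hc) x)⟩⟩
    have h1 := congrArg Prod.snd (congrFun (congrArg Prod.fst hc) x)
    have h2 : topOf el.ord (A.act (f₀ x)) = none := hπn x hx
    simp [code, h2] at h1
    exact h1
  set Nn := Finset.univ.filter fun x : ↥(BDeg.vset F) => π x ≠ none with hNn
  set Ro := Finset.univ.filter fun x : ↥(BDeg.vset F) => π x = none with hRo
  have hedges : F.card ≤ ∑ x ∈ Nn, (σ x).2.card := by
    have hsub : imgE f₀ ⊆ Nn.biUnion fun x => A.host.edges (f₀ x) := by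
      intro e he
      obtain ⟨e', -, rfl⟩ := Finset.mem_image.1 he
      have key : ∀ x y : ↥(BDeg.vset F), s(f₀ x, f₀ y) ∈ imgE f₀ →
          el.ord (f₀ y) < el.ord (f₀ x) →
          s(f₀ x, f₀ y) ∈ Nn.biUnion fun x => A.host.edges (f₀ x) := by
        intro x y he hlt
        have hb := el.hcover _ _ (by rw [Sym2.eq_swap]; exact h₀.edge _ he) hlt
        have hm : f₀ y ∈ A.act (f₀ x) := by rw [h₀.act]; exact forced_edge hb he
        refine Finset.mem_biUnion.2 ⟨x, Finset.mem_filter.2 ⟨Finset.mem_univ _, fun hx => ?_⟩,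
          A.edge_owned hm (h₀.edge _ he)⟩
        rw [topOf_eq_none.1 (hπn x hx)] at hm
        exact absurd hm (Finset.notMem_empty _)
      rcases lt_trichotomy (el.ord (f₀ (endA e'))) (el.ord (f₀ (endB e'))) with hh | hh | hh
      · rw [Sym2.eq_swap] at he ⊢
        exact key _ _ he hh
      · exfalso
        have := h₀.edge _ he
        rw [el.hord hh] at this
        exact el.hloop _ this
      · exact key _ _ he hh
    calc F.card = (imgE f₀).card := (imgE_card h₀.inj).symm
      _ ≤ (Nn.biUnion fun x => A.host.edges (f₀ x)).card := Finset.card_le_card hsub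
      _ ≤ ∑ x ∈ Nn, (A.host.edges (f₀ x)).card := Finset.card_biUnion_le
      _ = _ := Finset.sum_congr rfl fun x _ => A.host.edges_card _
  have hsplit : Ro.card + Nn.card = (BDeg.vset F).card := by
    rw [hRo, hNn, Finset.card_filter_add_card_filter_not, Finset.card_univ, Fintype.card_coe]
  set L : ℝ := (Fintype.card (Lb K) : ℝ) with hL
  have hL1 : 1 ≤ L := by rw [hL]; exact_mod_cast (Fintype.card_pos : 0 < Fintype.card (Lb K))
  have hs1 : 1 ≤ stepConst := by unfold stepConst; norm_num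
  have hprod : ∏ x ∈ Nn, stepConst * L ^ 3 * lamE n q (σ x) =
      (stepConst * L ^ 3 * n) ^ Nn.card * q ^ ∑ x ∈ Nn, (σ x).2.card := by
    rw [← Finset.prod_pow_eq_pow_sum, ← Finset.prod_const, ← Finset.prod_mul_distrib]
    exact Finset.prod_congr rfl fun x _ => by unfold lamE; ring
  calc (∏ x ∈ Nn, stepConst * L ^ 3 * lamE n q (σ x)) * (48 * (n : ℝ) * L ^ 3) ^ Ro.card
      = (stepConst * L ^ 3 * n) ^ Nn.card * q ^ (∑ x ∈ Nn, (σ x).2.card) *
          (48 * (n : ℝ) * L ^ 3) ^ Ro.card := by rw [hprod]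
    _ ≤ (vtxConst K * n) ^ Nn.card * q ^ F.card * (vtxConst K * n) ^ Ro.card := by
        have h1 : stepConst * L ^ 3 * n ≤ vtxConst K * n := by
          refine mul_le_mul_of_nonneg_right ?_ (Nat.cast_nonneg _)
          rw [vtxConst, ← hL]
          exact le_mul_of_one_le_right (by positivity) (by norm_num)
        have h2 : 48 * (n : ℝ) * L ^ 3 ≤ vtxConst K * n := by
          rw [vtxConst, ← hL]
          have : 0 ≤ 48 * (n : ℝ) * L ^ 3 := by positivity
          nlinarith
        have h3 := pow_le_pow_of_le_one hq.le hq1 hedges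
        have hs := stepConst_pos
        gcongr
    _ = _ := by
        rw [← hsplit, pow_add (vtxConst K), pow_add (n : ℝ), mul_pow, mul_pow]
        ring

/-- The constant of the bound. -/
noncomputable def elimConst (K : ℕ) : ℝ :=
  9 * (2 * ((K : ℝ) + 1) ^ 2) * (2 ^ K * ((Fintype.card (Lb K) : ℝ) * 2) * vtxConst K) ^ 2

lemma elimConst_pos (K : ℕ) : 0 < elimConst K := by
  have := vtxConst_pos K
  have : (0 : ℝ) < Fintype.card (Lb K) := by exact_mod_cast Fintype.card_pos
  unfold elimConst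
  positivity

lemma one_le_vtxConst (K : ℕ) : 1 ≤ vtxConst K := by
  have h1 : (1 : ℝ) ≤ Fintype.card (Lb K) := by
    exact_mod_cast (Fintype.card_pos : 0 < Fintype.card (Lb K))
  have h2 : 1 ≤ stepConst := by unfold stepConst; norm_num
  unfold vtxConst
  exact one_le_mul_of_one_le_of_one_le
    (one_le_mul_of_one_le_of_one_le h2 (one_le_pow₀ h1)) (by norm_num)

theorem cnt_le_elim {q : ℝ} (hq : 0 ≤ q) (hE : Sparse (Equiv.Perm (Fin n)) q E)
    (el : Elim E K) (F : Finset (Sym2 (Fin n))) :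
    (cnt (Equiv.Perm (Fin n)) F E : ℝ) ≤
      (Fintype.card (Equiv.Perm (Fin n)) : ℝ) * (elimConst K * q) ^ F.card := by
  have hC := elimConst_pos K
  have hG := vtxConst_pos K
  have hL1 : (1 : ℝ) ≤ Fintype.card (Lb K) := by
    exact_mod_cast (Fintype.card_pos : 0 < Fintype.card (Lb K))
  rcases F.eq_empty_or_nonempty with rfl | hFne
  · rw [cnt_empty]; simp
  set Rs := BDeg.restr F E (BDeg.vset F) with hRs
  rcases Rs.eq_empty_or_nonempty with h0 | ⟨f₁, hf₁⟩
  · rw [BDeg.cnt_eq_restr (Finset.Subset.refl _), ← hRs, h0, Finset.card_empty, Nat.zero_mul,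
      Nat.cast_zero]
    positivity
  have hC1 : 1 ≤ elimConst K := by
    unfold elimConst
    refine one_le_mul_of_one_le_of_one_le ?_ (one_le_pow₀ ?_)
    · have : (1 : ℝ) ≤ ((K : ℝ) + 1) ^ 2 := one_le_pow₀ (by linarith [Nat.cast_nonneg (α := ℝ) K])
      linarith
    · exact one_le_mul_of_one_le_of_one_le
        (one_le_mul_of_one_le_of_one_le (one_le_pow₀ (by norm_num)) (by linarith))
        (one_le_vtxConst K)
  rcases lt_or_ge 1 q with hq1 | hq1
  · calc (cnt (Equiv.Perm (Fin n)) F E : ℝ) ≤ (Fintype.card (Equiv.Perm (Fin n)) : ℝ) := by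
          exact_mod_cast cnt_le_card F E
      _ ≤ _ := le_mul_of_one_le_right (Nat.cast_nonneg _) (one_le_pow₀ (by nlinarith))
  obtain ⟨e₀, he₀⟩ := hFne
  obtain ⟨g₁, hg₁, -⟩ := Finset.mem_image.1 hf₁
  have hEne : E.Nonempty :=
    ⟨g₁ • e₀, (Finset.mem_filter.1 hg₁).2 (Finset.smul_mem_smul_finset he₀)⟩
  have hqpos : 0 < q := by
    rcases eq_or_lt_of_le hq with h | h
    · exfalso
      have h1 := hE E le_rfl
      have h2 : (1 : ℝ) ≤ (stab (Equiv.Perm (Fin n)) E : ℝ) := by
        exact_mod_cast Finset.card_pos.2 ⟨1, by simp⟩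
      rw [← h, zero_pow hEne.card_pos.ne', mul_zero, zero_mul] at h1
      linarith
    · exact h
  have hn : 0 < n := by
    induction e₀ using Sym2.ind with
    | _ a b => exact a.pos
  have hprop : ∀ f ∈ Rs, Function.Injective f ∧ ∀ e ∈ imgE f, e ∈ E := by
    intro f hf
    obtain ⟨g, hg, rfl⟩ := Finset.mem_image.1 hf
    refine ⟨fun a b h => Subtype.ext (g.injective h), fun e he => ?_⟩
    obtain ⟨e', -, rfl⟩ := Finset.mem_image.1 he
    have h1 := (Finset.mem_filter.1 hg).2 (Finset.smul_mem_smul_finset (a := g) e'.2)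
    have h2 : s((endA e').1, (endB e').1) = e'.1 := Quot.out_eq _
    rw [← h2, perm_sym2_smul, Sym2.map_mk] at h1
    exact h1
  set v := (BDeg.vset F).card with hv
  set Cs := Fintype.piFinset fun y => (el.back y).powerset with hCs
  have hCne : Cs.Nonempty :=
    ⟨fun _ => ∅, Fintype.mem_piFinset.2 fun y => Finset.empty_mem_powerset _⟩
  set ag : (↥(BDeg.vset F) → Fin n) → (Fin n → Finset (Fin n)) → Prop := fun f a =>
    ∀ x, a (f x) = forced el (imgE f) (f x) with hag
  have hfrac : ∀ f ∈ Rs, Cs.card ≤ (2 ^ K) ^ v * (Cs.filter fun a => ag f a).card := by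
    intro f hf
    set I := Finset.univ.image f with hI
    set P : Fin n → Finset (Finset (Fin n)) := fun y =>
      if y ∈ I then {forced el (imgE f) y} else (el.back y).powerset with hP
    have hsub : Fintype.piFinset P ⊆ Cs.filter fun a => ag f a := by
      intro a ha
      rw [Fintype.mem_piFinset] at ha
      refine Finset.mem_filter.2 ⟨Fintype.mem_piFinset.2 fun y => ?_, fun x => ?_⟩
      · have := ha y
        simp only [hP] at this
        split at this
        · rw [Finset.mem_singleton] at this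
          rw [this, Finset.mem_powerset]
          exact forced_sub el _ y
        · exact this
      · have := ha (f x)
        simp only [hP] at this
        rw [if_pos (Finset.mem_image_of_mem f (Finset.mem_univ x) : f x ∈ I)] at this
        exact Finset.mem_singleton.1 this
    refine le_trans ?_ (Nat.mul_le_mul_left _ (Finset.card_le_card hsub))
    rw [hCs, Fintype.card_piFinset, Fintype.card_piFinset,
      ← Finset.prod_mul_prod_compl I, ← Finset.prod_mul_prod_compl I (fun y => (P y).card),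
      Finset.prod_congr rfl (fun y hy => by simp only [hP, if_pos hy, Finset.card_singleton] :
        ∀ y ∈ I, (P y).card = 1), Finset.prod_const_one, one_mul,
      Finset.prod_congr rfl (fun y hy => by
        simp only [hP, if_neg (Finset.mem_compl.1 hy)] :
        ∀ y ∈ Iᶜ, (P y).card = (el.back y).powerset.card)]
    refine Nat.mul_le_mul_right _ ?_
    calc ∏ y ∈ I, (el.back y).powerset.card ≤ ∏ _y ∈ I, 2 ^ K :=
          Finset.prod_le_prod (fun y _ => Nat.zero_le _) fun y _ => by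
            rw [Finset.card_powerset]
            exact Nat.pow_le_pow_right (by norm_num) (el.hcard y)
      _ ≤ (2 ^ K) ^ v := by
          rw [Finset.prod_const]
          refine Nat.pow_le_pow_right (Nat.one_le_two_pow) (Finset.card_image_le.trans ?_)
          rw [Finset.card_univ, Fintype.card_coe]
  obtain ⟨a, ha, hmax⟩ :=
    Finset.exists_max_image Cs (fun a => (Rs.filter fun f => ag f a).card) hCne
  have hbest : Rs.card ≤ (2 ^ K) ^ v * (Rs.filter fun f => ag f a).card := by
    have hswap : ∑ f ∈ Rs, (Cs.filter fun a => ag f a).card =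
        ∑ a ∈ Cs, (Rs.filter fun f => ag f a).card := by
      simp only [Finset.card_filter]
      exact Finset.sum_comm
    have h1 : Rs.card * Cs.card ≤ ((2 ^ K) ^ v * (Rs.filter fun f => ag f a).card) * Cs.card := by
      calc Rs.card * Cs.card = ∑ _f ∈ Rs, Cs.card := by rw [Finset.sum_const, smul_eq_mul]
        _ ≤ ∑ f ∈ Rs, (2 ^ K) ^ v * (Cs.filter fun a => ag f a).card := Finset.sum_le_sum hfrac
        _ = (2 ^ K) ^ v * ∑ a ∈ Cs, (Rs.filter fun f => ag f a).card := by
            rw [← Finset.mul_sum, hswap]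
        _ ≤ (2 ^ K) ^ v * (Cs.card * (Rs.filter fun f => ag f a).card) :=
            Nat.mul_le_mul_left _ (by
              rw [← smul_eq_mul]; exact Finset.sum_le_card_nsmul _ _ _ hmax)
        _ = _ := by ring
    exact Nat.le_of_mul_le_mul_right h1 hCne.card_pos
  set R' := Rs.filter fun f => ag f a with hR'
  have hsub' : ∀ y, a y ⊆ el.back y := fun y =>
    Finset.mem_powerset.1 (Fintype.mem_piFinset.1 ha y)
  set A := prune el a hsub' with hA
  have hfit : ∀ f ∈ R', Fits A f := by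
    intro f hf
    obtain ⟨hfR, hfa⟩ := Finset.mem_filter.1 hf
    refine ⟨(hprop f hfR).1, (hprop f hfR).2, fun x => ?_⟩
    have hcl : Closed el a (f x) := by
      refine closed_of_forced el (W := imgE f) (fun y hy => ?_) _ (vset_imgE f x)
      obtain ⟨x', rfl⟩ := mem_vset_imgE hy
      exact hfa x'
    show (if Closed el a (f x) then a (f x) else ∅) = _
    rw [if_pos hcl]
    exact hfa x
  have hR'le : (R'.card : ℝ) ≤ (((Fintype.card (Lb K) : ℝ) * 2) ^ v *
      (2 * ((K : ℝ) + 1) ^ 2) ^ F.card) * (vtxConst K ^ v * (n : ℝ) ^ v * q ^ F.card) := by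
    rw [Finset.card_eq_sum_card_fiberwise (f := code A) (t := Finset.univ)
      (fun f _ => Finset.mem_univ _), Nat.cast_sum]
    refine (Finset.sum_le_sum fun c _ => class_count hqpos hq1 hn hE A R' hfit c).trans
      (le_of_eq ?_)
    rw [Finset.sum_const, Finset.card_univ, nsmul_eq_mul, ← hv]
    simp only [Fintype.card_prod, Fintype.card_fun, Fintype.card_bool, Fintype.card_option,
      Fintype.card_fin, Fintype.card_coe]
    push_cast
    rw [← hv]
    ring
  set B : ℝ := 2 ^ K * ((Fintype.card (Lb K) : ℝ) * 2) * vtxConst K with hB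
  set D : ℝ := 2 * ((K : ℝ) + 1) ^ 2 with hD
  have hB1 : 1 ≤ B := one_le_mul_of_one_le_of_one_le
    (one_le_mul_of_one_le_of_one_le (one_le_pow₀ (by norm_num)) (by linarith)) (one_le_vtxConst K)
  have hD0 : 0 ≤ D := by positivity
  have hrestr : (Rs.card : ℝ) ≤ (n : ℝ) ^ v * (D * B ^ 2 * q) ^ F.card := by
    calc (Rs.card : ℝ) ≤ (((2 ^ K) ^ v * R'.card : ℕ) : ℝ) := by exact_mod_cast hbest
      _ = ((2 : ℝ) ^ K) ^ v * R'.card := by push_cast; ring
      _ ≤ ((2 : ℝ) ^ K) ^ v * _ := mul_le_mul_of_nonneg_left hR'le (by positivity)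
      _ = B ^ v * (D ^ F.card * ((n : ℝ) ^ v * q ^ F.card)) := by
          simp only [hB, mul_pow]; ring
      _ ≤ B ^ (2 * F.card) * (D ^ F.card * ((n : ℝ) ^ v * q ^ F.card)) :=
          mul_le_mul_of_nonneg_right (pow_le_pow_right₀ hB1 (BDeg.vset_card_le F)) (by positivity)
      _ = _ := by rw [pow_mul]; simp only [mul_pow]; ring
  have hvn : v ≤ n := (Finset.card_le_univ _).trans (le_of_eq (Fintype.card_fin n))
  rw [BDeg.cnt_eq_restr (Finset.Subset.refl _), ← hRs, ← hv]
  push_cast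
  calc (Rs.card : ℝ) * ((n - v).factorial : ℝ)
      ≤ (n : ℝ) ^ v * (D * B ^ 2 * q) ^ F.card * ((n - v).factorial : ℝ) :=
        mul_le_mul_of_nonneg_right hrestr (Nat.cast_nonneg _)
    _ = (n : ℝ) ^ v * ((n - v).factorial : ℝ) * (D * B ^ 2 * q) ^ F.card := by ring
    _ ≤ 3 ^ v * (n.factorial : ℝ) * (D * B ^ 2 * q) ^ F.card :=
        mul_le_mul_of_nonneg_right (BDeg.pow_le_desc hvn) (by positivity)
    _ ≤ 3 ^ (2 * F.card) * (n.factorial : ℝ) * (D * B ^ 2 * q) ^ F.card := by
        gcongr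
        · norm_num
        · exact BDeg.vset_card_le F
    _ = _ := by
        rw [Fintype.card_perm, Fintype.card_fin, pow_mul, mul_comm _ (n.factorial : ℝ),
          mul_assoc, ← mul_pow]
        rw [hB, hD]
        unfold elimConst
        ring

end Vale.Agent.P064.Tree
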