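import Mathlib

/-! Counting injective placements of children among overlapping classes. -/

namespace Vale.Agent.P064.Tree

open Finset
open scoped Classical

variable {β κ : Type*}

lemma factorial_esymm_le (X : Finset κ) (w : κ → ℝ) (hw : ∀ x ∈ X, 0 ≤ w x) :
    ∀ m : ℕ, (m.factorial : ℝ) * ∑ T ∈ X.powersetCard m, ∏ x ∈ T, w x ≤ (∑ x ∈ X, w x) ^ m := by
  intro m
  induction m with
  | zero => simp
  | succ m ih =>
    have hpr : ∀ T ∈ X.powersetCard m, 0 ≤ ∏ x ∈ T, w x := fun T hT =>
      Finset.prod_nonneg fun x hx => hw x ((Finset.mem_powersetCard.1 hT).1 hx)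
    have hS : 0 ≤ ∑ x ∈ X, w x := Finset.sum_nonneg hw
    have key : ((m : ℝ) + 1) * ∑ T ∈ X.powersetCard (m + 1), ∏ x ∈ T, w x ≤
        (∑ x ∈ X, w x) * ∑ T ∈ X.powersetCard m, ∏ x ∈ T, w x := by
      rw [Finset.sum_mul_sum, ← Finset.sum_product', Finset.mul_sum]
      calc ∑ T ∈ X.powersetCard (m + 1), ((m : ℝ) + 1) * ∏ x ∈ T, w x
          = ∑ T ∈ X.powersetCard (m + 1), ∑ x ∈ T, w x * ∏ y ∈ T.erase x, w y := by
            refine Finset.sum_congr rfl fun T hT => ?_
            rw [Finset.sum_congr rfl fun x hx => Finset.mul_prod_erase T w hx, Finset.sum_const,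
              (Finset.mem_powersetCard.1 hT).2, nsmul_eq_mul]
            push_cast
            ring
        _ = ∑ q ∈ (X.powersetCard (m + 1)).sigma fun T => T,
              w q.2 * ∏ y ∈ q.1.erase q.2, w y := by rw [Finset.sum_sigma]
        _ = ∑ z ∈ ((X.powersetCard (m + 1)).sigma fun T => T).image
              (fun q => (q.2, q.1.erase q.2)), w z.1 * ∏ y ∈ z.2, w y := by
            rw [Finset.sum_image]
            intro a ha b hb hab
            have ha' := Finset.mem_sigma.1 ha
            have hb' := Finset.mem_sigma.1 hb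
            simp only [Prod.mk.injEq] at hab
            obtain ⟨T, x⟩ := a
            obtain ⟨T', x'⟩ := b
            obtain ⟨rfl, h⟩ := hab
            dsimp only at ha' hb' h
            have : T = T' := by rw [← Finset.insert_erase ha'.2, ← Finset.insert_erase hb'.2, h]
            subst this
            rfl
        _ ≤ ∑ z ∈ X ×ˢ X.powersetCard m, w z.1 * ∏ y ∈ z.2, w y := by
            refine Finset.sum_le_sum_of_subset_of_nonneg ?_ ?_
            · intro z hz
              obtain ⟨q, hq, rfl⟩ := Finset.mem_image.1 hz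
              obtain ⟨hT, hx⟩ := Finset.mem_sigma.1 hq
              obtain ⟨hTX, hTc⟩ := Finset.mem_powersetCard.1 hT
              refine Finset.mem_product.2 ⟨hTX hx, Finset.mem_powersetCard.2
                ⟨(Finset.erase_subset _ _).trans hTX, ?_⟩⟩
              show (q.1.erase q.2).card = m
              rw [Finset.card_erase_of_mem hx, hTc]
              rfl
            · intro z hz _
              exact mul_nonneg (hw _ (Finset.mem_product.1 hz).1)
                (hpr _ (Finset.mem_product.1 hz).2)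
    calc ((m + 1).factorial : ℝ) * ∑ T ∈ X.powersetCard (m + 1), ∏ x ∈ T, w x
        = (m.factorial : ℝ) * (((m : ℝ) + 1) * ∑ T ∈ X.powersetCard (m + 1), ∏ x ∈ T, w x) := by
          rw [Nat.factorial_succ]; push_cast; ring
      _ ≤ (m.factorial : ℝ) * ((∑ x ∈ X, w x) * ∑ T ∈ X.powersetCard m, ∏ x ∈ T, w x) :=
          mul_le_mul_of_nonneg_left key (by positivity)
      _ = (∑ x ∈ X, w x) * ((m.factorial : ℝ) * ∑ T ∈ X.powersetCard m, ∏ x ∈ T, w x) := by ring
      _ ≤ (∑ x ∈ X, w x) * (∑ x ∈ X, w x) ^ m := mul_le_mul_of_nonneg_left ih hS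
      _ = _ := by rw [pow_succ]; ring

/-- The weight carried by a point covered by the pieces `P`. -/
noncomputable def gOf (K : Finset κ) (z : κ → ℝ) (P : κ → Finset β) (y : β) : ℝ :=
  ∑ b ∈ K.filter (fun b => y ∈ P b), z b * (P b).card

lemma gOf_eq {K : Finset κ} {z : κ → ℝ} {P : κ → Finset β}
    (hd : (K : Set κ).PairwiseDisjoint P) {a : κ} (ha : a ∈ K) {y : β} (hy : y ∈ P a) :
    gOf K z P y = z a * (P a).card := by
  unfold gOf
  rw [show K.filter (fun b => y ∈ P b) = {a} from ?_, Finset.sum_singleton]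
  ext b
  simp only [Finset.mem_filter, Finset.mem_singleton]
  constructor
  · rintro ⟨hb, hyb⟩
    by_contra hne
    exact Finset.disjoint_left.1 (hd ha hb (fun h => hne h.symm)) hy hyb
  · rintro rfl; exact ⟨ha, hy⟩

lemma greedy_aux {A : ℝ} (hA : 0 < A) (K : Finset κ) (z : κ → ℝ) (hz : ∀ a ∈ K, 0 ≤ z a) :
    ∀ (N : ℕ) (D : κ → Finset β), ∑ a ∈ K, (D a).card ≤ N →
      ∃ P : κ → Finset β, (∀ a, P a ⊆ D a) ∧ (K : Set κ).PairwiseDisjoint P ∧
        (∀ a ∈ K, (P a).Nonempty → A ≤ z a * (P a).card) ∧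
        (∀ a ∈ K, z a * (D a \ K.biUnion P).card ≤ A) ∧
        (∀ a ∈ K, ∀ R ⊆ D a, R ⊆ K.biUnion P →
          (R.card.factorial : ℝ) * z a ^ R.card ≤ ∏ y ∈ R, gOf K z P y) := by
  intro N
  induction N using Nat.strong_induction_on with
  | _ N ih =>
  intro D hN
  by_cases hbig : ∃ a ∈ K, A < z a * (D a).card
  · obtain ⟨a₁, ha₁, h1⟩ := hbig
    obtain ⟨s, hs, hmax⟩ := Finset.exists_max_image K (fun a => z a * ((D a).card : ℝ)) ⟨a₁, ha₁⟩
    have hAs : A < z s * (D s).card := h1.trans_le (hmax a₁ ha₁)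
    have hsne : (D s).Nonempty := by
      rcases (D s).eq_empty_or_nonempty with h | h
      · rw [h] at hAs; simp at hAs; linarith
      · exact h
    set D' : κ → Finset β := fun a => D a \ D s with hD'
    have hlt : ∑ a ∈ K, (D' a).card < ∑ a ∈ K, (D a).card := by
      refine Finset.sum_lt_sum (fun a _ => Finset.card_le_card Finset.sdiff_subset) ⟨s, hs, ?_⟩
      simp only [hD', Finset.sdiff_self, Finset.card_empty]
      exact hsne.card_pos
    obtain ⟨P', hP'D, hP'd, hP'A, hP'out, hP'R⟩ :=
      ih (∑ a ∈ K, (D' a).card) (by omega) D' le_rfl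
    have hs0 : P' s = ∅ := by
      have := hP'D s
      simp only [hD', Finset.sdiff_self, Finset.subset_empty] at this
      exact this
    set P : κ → Finset β := fun a => if a = s then D s else P' a with hP
    have hPs : P s = D s := if_pos rfl
    have hPne : ∀ a, a ≠ s → P a = P' a := fun a h => if_neg h
    have hdis : ∀ b, Disjoint (D s) (P' b) := fun b =>
      (Finset.disjoint_sdiff).mono_right (hP'D b)
    have hd : (K : Set κ).PairwiseDisjoint P := by
      intro a ha b hb hab
      rcases eq_or_ne a s with rfl | h1 <;> rcases eq_or_ne b a with rfl | h2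
      · exact absurd rfl hab
      · show Disjoint (P a) (P b)
        rw [hPs, hPne b h2]; exact hdis b
      · exact absurd rfl hab
      · show Disjoint (P a) (P b)
        rw [hPne a h1]
        rcases eq_or_ne b s with rfl | h3
        · rw [hPs]; exact (hdis a).symm
        · rw [hPne b h3]; exact hP'd ha hb hab
    have hbu : K.biUnion P = D s ∪ K.biUnion P' := by
      ext y
      simp only [Finset.mem_biUnion, Finset.mem_union]
      constructor
      · rintro ⟨a, ha, hy⟩
        rcases eq_or_ne a s with rfl | h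
        · rw [hPs] at hy; exact Or.inl hy
        · rw [hPne a h] at hy; exact Or.inr ⟨a, ha, hy⟩
      · rintro (hy | ⟨a, ha, hy⟩)
        · exact ⟨s, hs, by rw [hPs]; exact hy⟩
        · rcases eq_or_ne a s with rfl | h
          · rw [hs0] at hy; simp at hy
          · exact ⟨a, ha, by rw [hPne a h]; exact hy⟩
    refine ⟨P, ?_, hd, ?_, ?_, ?_⟩
    · intro a
      rcases eq_or_ne a s with rfl | h
      · rw [hPs]
      · rw [hPne a h]; exact (hP'D a).trans Finset.sdiff_subset
    · intro a ha hne
      rcases eq_or_ne a s with rfl | h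
      · rw [hPs]; exact hAs.le
      · rw [hPne a h] at hne ⊢; exact hP'A a ha hne
    · intro a ha
      rw [hbu, show D a \ (D s ∪ K.biUnion P') = (D a \ D s) \ K.biUnion P' from by
        ext y; simp [and_assoc]]
      exact hP'out a ha
    · intro a ha R hRD hRU
      rw [hbu] at hRU
      set R₁ := R ∩ D s with hR₁
      set R₂ := R \ D s with hR₂
      have h2D : R₂ ⊆ D' a := Finset.sdiff_subset_sdiff hRD (Finset.Subset.refl _)
      have h2U : R₂ ⊆ K.biUnion P' := fun y hy => by
        obtain ⟨hyR, hys⟩ := Finset.mem_sdiff.1 hy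
        exact (Finset.mem_union.1 (hRU hyR)).resolve_left hys
      have hcard : R.card = R₂.card + R₁.card := (Finset.card_sdiff_add_card_inter R (D s)).symm
      have hfac : (R.card.factorial : ℝ) ≤ (R₂.card.factorial : ℝ) * (R.card : ℝ) ^ R₁.card := by
        have h := Nat.factorial_mul_descFactorial (n := R.card) (k := R₁.card) (by omega)
        rw [show R.card - R₁.card = R₂.card by omega] at h
        rw [← h]
        push_cast
        exact mul_le_mul_of_nonneg_left (by exact_mod_cast Nat.descFactorial_le_pow _ _)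
          (Nat.cast_nonneg _)
      have hza := hz a ha
      have hle : (R.card : ℝ) * z a ≤ z s * (D s).card := by
        refine le_trans ?_ (hmax a ha)
        rw [mul_comm]
        exact mul_le_mul_of_nonneg_left (by exact_mod_cast Finset.card_le_card hRD) hza
      have hg1 : ∀ y ∈ R₁, gOf K z P y = z s * (D s).card := fun y hy => by
        rw [gOf_eq hd hs (show y ∈ P s by rw [hPs]; exact (Finset.mem_inter.1 hy).2), hPs]
      have hg2 : ∀ y ∈ R₂, gOf K z P y = gOf K z P' y := fun y hy => by
        obtain ⟨b, hb, hyb⟩ := Finset.mem_biUnion.1 (h2U hy)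
        have hbs : b ≠ s := fun h => by rw [h, hs0] at hyb; simp at hyb
        rw [gOf_eq hd hb (show y ∈ P b by rw [hPne b hbs]; exact hyb), gOf_eq hP'd hb hyb,
          hPne b hbs]
      have hR : R = R₂ ∪ R₁ := (Finset.sdiff_union_inter R (D s)).symm
      calc (R.card.factorial : ℝ) * z a ^ R.card
          ≤ (R₂.card.factorial : ℝ) * (R.card : ℝ) ^ R₁.card * z a ^ R.card :=
            mul_le_mul_of_nonneg_right hfac (pow_nonneg hza _)
        _ = ((R₂.card.factorial : ℝ) * z a ^ R₂.card) * ((R.card : ℝ) * z a) ^ R₁.card := by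
            rw [hcard, pow_add, mul_pow]; ring
        _ ≤ (∏ y ∈ R₂, gOf K z P' y) * (z s * (D s).card) ^ R₁.card := by
            have := hP'R a ha R₂ h2D h2U
            refine mul_le_mul this (pow_le_pow_left₀ (mul_nonneg (Nat.cast_nonneg _) hza) hle _)
              (pow_nonneg (mul_nonneg (Nat.cast_nonneg _) hza) _)
              (le_trans (mul_nonneg (Nat.cast_nonneg _) (pow_nonneg hza _)) this)
        _ = ∏ y ∈ R, gOf K z P y := by
            rw [← Finset.prod_congr rfl hg2, ← Finset.prod_const, ← Finset.prod_congr rfl hg1,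
              ← Finset.prod_union (Finset.disjoint_sdiff_inter R (D s)),
              Finset.sdiff_union_inter]
  · push Not at hbig
    have hU : (K.biUnion fun _ => (∅ : Finset β)) = ∅ := by ext y; simp
    refine ⟨fun _ => ∅, fun a => Finset.empty_subset _, ?_, ?_, ?_, ?_⟩
    · intro a _ b _ _
      exact Finset.disjoint_empty_left _
    · intro a _ h; simp at h
    · intro a ha
      rw [hU, Finset.sdiff_empty]; exact hbig a ha
    · intro a _ R _ hRU
      rw [hU, Finset.subset_empty] at hRU
      subst hRU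
      simp

variable {ι : Type*} [Fintype ι]

/-- Relabellings of a map by permutations of its domain. -/
noncomputable def mult (c : ι → κ) : Finset (ι → κ) :=
  Finset.image (fun σ : Equiv.Perm ι => c ∘ (σ : ι → ι)) Finset.univ

lemma inj_count (c : ι → κ) (D : κ → Finset β) (z : κ → ℝ) (U : Finset β) (g : β → ℝ)
    (hz : ∀ i, 0 ≤ z (c i)) (hg : ∀ y ∈ U, 0 ≤ g y)
    (hR : ∀ i, ∀ R ⊆ D (c i), R ⊆ U →
      (R.card.factorial : ℝ) * z (c i) ^ R.card ≤ ∏ y ∈ R, g y) :
    ((((Fintype.piFinset fun i => D (c i) ∩ U).filter Function.Injective).card : ℝ)) *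
        ∏ i, z (c i) ≤
      ((mult c).card : ℝ) * ∑ R ∈ U.powersetCard (Fintype.card ι), ∏ y ∈ R, g y := by
  set S := (Fintype.piFinset fun i => D (c i) ∩ U).filter Function.Injective with hS
  have hmem : ∀ π ∈ S, ∀ i, π i ∈ D (c i) ∧ π i ∈ U := fun π hπ i =>
    Finset.mem_inter.1 (Fintype.mem_piFinset.1 (Finset.mem_filter.1 hπ).1 i)
  have hinj : ∀ π ∈ S, Function.Injective π := fun π hπ => (Finset.mem_filter.1 hπ).2
  have hz' : 0 ≤ ∏ i, z (c i) := Finset.prod_nonneg fun i _ => hz i
  have hmaps : ∀ π ∈ S, Finset.univ.image π ∈ U.powersetCard (Fintype.card ι) := fun π hπ =>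
    Finset.mem_powersetCard.2 ⟨fun y hy => by
      obtain ⟨i, -, rfl⟩ := Finset.mem_image.1 hy
      exact (hmem π hπ i).2, by rw [Finset.card_image_of_injective _ (hinj π hπ), Finset.card_univ]⟩
  rw [Finset.card_eq_sum_card_fiberwise hmaps, Nat.cast_sum, Finset.sum_mul, Finset.mul_sum]
  refine Finset.sum_le_sum fun R hRU => ?_
  have hgR : 0 ≤ ∏ y ∈ R, g y :=
    Finset.prod_nonneg fun y hy => hg y ((Finset.mem_powersetCard.1 hRU).1 hy)
  set F := S.filter fun π => Finset.univ.image π = R with hF
  rcases F.eq_empty_or_nonempty with hFe | ⟨π₀, hπ₀⟩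
  · rw [hFe]; simp [mul_nonneg, hgR]
  obtain ⟨hπ₀S, hπ₀R⟩ := Finset.mem_filter.1 hπ₀
  have hσ : ∀ π : ι → β, ∃ σ : Equiv.Perm ι, π ∈ F → ∀ j, π (σ j) = π₀ j := by
    intro π
    by_cases hπ : π ∈ F
    · obtain ⟨hπS, hπR⟩ := Finset.mem_filter.1 hπ
      have hex : ∀ j, ∃ i, π i = π₀ j := fun j => by
        have : π₀ j ∈ Finset.univ.image π := by
          rw [hπR, ← hπ₀R]; exact Finset.mem_image_of_mem _ (Finset.mem_univ j)
        obtain ⟨i, -, hi⟩ := Finset.mem_image.1 this
        exact ⟨i, hi⟩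
      choose f hf using hex
      have hfi : Function.Injective f := fun a b hab => hinj π₀ hπ₀S (by rw [← hf a, ← hf b, hab])
      exact ⟨Equiv.ofBijective f (Finite.injective_iff_bijective.1 hfi), fun _ j => hf j⟩
    · exact ⟨1, fun h => absurd h hπ⟩
  choose σ hσ using hσ
  have hlab : ∀ π ∈ F, (c ∘ σ π) ∈ mult c := fun π _ =>
    Finset.mem_image_of_mem _ (Finset.mem_univ _)
  rw [Finset.card_eq_sum_card_fiberwise hlab, Nat.cast_sum, Finset.sum_mul, ← nsmul_eq_mul,
    ← Finset.sum_const]
  refine Finset.sum_le_sum fun ℓ _ => ?_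
  set G := F.filter fun π => c ∘ σ π = ℓ with hG
  rcases G.eq_empty_or_nonempty with hGe | ⟨π₁, hπ₁⟩
  · rw [hGe]; simp [hgR]
  obtain ⟨hπ₁F, hπ₁ℓ⟩ := Finset.mem_filter.1 hπ₁
  obtain ⟨hπ₁S, hπ₁R⟩ := Finset.mem_filter.1 hπ₁F
  have hcard : G.card ≤
      ∏ a ∈ Finset.univ.image c, (Fintype.card {i // c i = a}).factorial := by
    rw [← DomMulAct.stabilizer_card' c, ← Finset.card_univ]
    refine Finset.card_le_card_of_injOn (t := Finset.univ)
      (fun π => if h : c ∘ (σ π * (σ π₁)⁻¹ : Equiv.Perm ι) = c then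
        (⟨σ π * (σ π₁)⁻¹, h⟩ : {g : Equiv.Perm ι // c ∘ g = c}) else ⟨1, rfl⟩)
      (fun π _ => Finset.mem_univ _) ?_
    intro a ha b hb hab
    obtain ⟨haF, haℓ⟩ := Finset.mem_filter.1 ha
    obtain ⟨hbF, hbℓ⟩ := Finset.mem_filter.1 hb
    have hfix : ∀ π, c ∘ σ π = ℓ → c ∘ (σ π * (σ π₁)⁻¹ : Equiv.Perm ι) = c := by
      intro π hπ
      funext i
      have h1 := congrFun hπ ((σ π₁).symm i)
      have h2 := congrFun hπ₁ℓ ((σ π₁).symm i)
      simp only [Function.comp_apply, Equiv.apply_symm_apply] at h1 h2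
      simp only [Function.comp_apply, Equiv.Perm.mul_apply, Equiv.Perm.inv_def, h1, h2]
    simp only [dif_pos (hfix a haℓ), dif_pos (hfix b hbℓ), Subtype.mk.injEq] at hab
    have hab' : σ a = σ b := mul_right_cancel hab
    funext i
    have h1 := hσ a haF ((σ a).symm i)
    have h2 := hσ b hbF ((σ a).symm i)
    rw [← hab'] at h2
    rw [Equiv.apply_symm_apply] at h1 h2
    rw [h1, h2]
  calc (G.card : ℝ) * ∏ i, z (c i)
      ≤ (∏ a ∈ Finset.univ.image c, ((Fintype.card {i // c i = a}).factorial : ℝ)) *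
          ∏ i, z (c i) := mul_le_mul_of_nonneg_right (by exact_mod_cast hcard) hz'
    _ = ∏ a ∈ Finset.univ.image c, (((Fintype.card {i // c i = a}).factorial : ℝ) *
          z a ^ (Finset.univ.filter fun i => c i = a).card) := by
        rw [Finset.prod_mul_distrib]
        congr 1
        rw [← Finset.prod_fiberwise_of_maps_to (g := c) (t := Finset.univ.image c)
          (fun i hi => Finset.mem_image_of_mem c hi)]
        refine Finset.prod_congr rfl fun a _ => ?_
        rw [Finset.prod_congr rfl (fun i hi => by rw [(Finset.mem_filter.1 hi).2]),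
          Finset.prod_const]
    _ ≤ ∏ a ∈ Finset.univ.image c, ∏ i ∈ Finset.univ.filter (fun i => c i = a), g (π₁ i) := by
        refine Finset.prod_le_prod (fun a ha => ?_) fun a ha => ?_
        · obtain ⟨i, -, rfl⟩ := Finset.mem_image.1 ha
          exact mul_nonneg (Nat.cast_nonneg _) (pow_nonneg (hz i) _)
        obtain ⟨i, -, rfl⟩ := Finset.mem_image.1 ha
        have hi1 := hinj π₁ hπ₁S
        rw [Fintype.card_subtype, ← Finset.prod_image (g := π₁) (f := g) (fun a _ b _ h => hi1 h),
          ← Finset.card_image_of_injective _ hi1]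
        refine hR i _ ?_ ?_
        · intro y hy
          obtain ⟨j, hj, rfl⟩ := Finset.mem_image.1 hy
          rw [← (Finset.mem_filter.1 hj).2]
          exact (hmem π₁ hπ₁S j).1
        · intro y hy
          obtain ⟨j, -, rfl⟩ := Finset.mem_image.1 hy
          exact (hmem π₁ hπ₁S j).2
    _ = ∏ y ∈ R, g y := by
        rw [Finset.prod_fiberwise_of_maps_to (g := c) (fun i hi => Finset.mem_image_of_mem c hi),
          ← hπ₁R, Finset.prod_image (fun a _ b _ h => hinj π₁ hπ₁S h)]

lemma place_count (c : ι → κ) (D : κ → Finset β) (z : κ → ℝ) (U : Finset β) (g : β → ℝ) {A : ℝ}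
    (hA : 0 < A) (hz : ∀ i, 0 ≤ z (c i)) (hgA : ∀ y ∈ U, A ≤ g y)
    (hout : ∀ i, z (c i) * (D (c i) \ U).card ≤ A)
    (hR : ∀ i, ∀ R ⊆ D (c i), R ⊆ U →
      (R.card.factorial : ℝ) * z (c i) ^ R.card ≤ ∏ y ∈ R, g y) :
    ((((Fintype.piFinset fun i => D (c i)).filter Function.Injective).card : ℝ)) *
        ∏ i, z (c i) ≤
      (2 * A) ^ Fintype.card ι * ((mult c).card : ℝ) * ∏ y ∈ U, (2 * g y / A) := by
  set S := (Fintype.piFinset fun i => D (c i)).filter Function.Injective with hS
  have hg : ∀ y ∈ U, 0 ≤ g y := fun y hy => hA.le.trans (hgA y hy)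
  have hpos : 0 ≤ ∏ y ∈ U, (2 * g y / A) :=
    Finset.prod_nonneg fun y hy => div_nonneg (by linarith [hg y hy]) hA.le
  have hmaps : ∀ π ∈ S, (Finset.univ.filter fun i => π i ∉ U) ∈ (Finset.univ : Finset ι).powerset :=
    fun π _ => Finset.mem_powerset.2 (Finset.filter_subset _ _)
  rw [Finset.card_eq_sum_card_fiberwise hmaps, Nat.cast_sum, Finset.sum_mul]
  refine le_trans (Finset.sum_le_card_nsmul _ _
    (A ^ Fintype.card ι * ((mult c).card : ℝ) * ∏ y ∈ U, (2 * g y / A)) fun O _ => ?_) ?_
  swap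
  · rw [Finset.card_powerset, Finset.card_univ, nsmul_eq_mul, mul_pow]
    push_cast
    exact le_of_eq (by ring)
  set F := S.filter fun π => (Finset.univ.filter fun i => π i ∉ U) = O with hF
  set c' : {i // i ∉ O} → κ := fun i => c i with hc'
  set T₁ := Fintype.piFinset fun i : O => D (c i) \ U with hT₁
  set T₂ := (Fintype.piFinset fun i : {i // i ∉ O} => D (c' i) ∩ U).filter Function.Injective
    with hT₂
  have hFc : F.card ≤ T₁.card * T₂.card := by
    rw [← Finset.card_product]
    refine Finset.card_le_card_of_injOn (fun π => (fun i => π i.1, fun i => π i.1)) ?_ ?_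
    · intro π hπ
      obtain ⟨hπS, hπO⟩ := Finset.mem_filter.1 hπ
      obtain ⟨hπD, hπi⟩ := Finset.mem_filter.1 hπS
      refine Finset.mem_product.2 ⟨Fintype.mem_piFinset.2 fun i => Finset.mem_sdiff.2
          ⟨Fintype.mem_piFinset.1 hπD i.1, ?_⟩,
        Finset.mem_filter.2 ⟨Fintype.mem_piFinset.2 fun i => Finset.mem_inter.2
          ⟨Fintype.mem_piFinset.1 hπD i.1, ?_⟩, ?_⟩⟩
      · exact (Finset.mem_filter.1 ((Finset.ext_iff.1 hπO i.1).2 i.2)).2
      · by_contra h
        exact i.2 ((Finset.ext_iff.1 hπO i.1).1 (Finset.mem_filter.2 ⟨Finset.mem_univ _, h⟩))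
      · intro a b hab
        exact Subtype.ext (hπi hab)
    · intro a _ b _ hab
      simp only [Prod.mk.injEq] at hab
      funext i
      by_cases hi : i ∈ O
      · exact congrFun hab.1 ⟨i, hi⟩
      · exact congrFun hab.2 ⟨i, hi⟩
  have hprod : ∏ i, z (c i) = (∏ i : O, z (c i)) * ∏ i : {i // i ∉ O}, z (c' i) := by
    rw [← Finset.prod_mul_prod_compl O, Finset.prod_coe_sort O (fun i => z (c i)),
      Finset.prod_subtype Oᶜ (p := fun i => i ∉ O) (fun x => Finset.mem_compl)]
  have h1 : (T₁.card : ℝ) * ∏ i : O, z (c i) ≤ A ^ O.card := by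
    rw [Fintype.card_piFinset, Nat.cast_prod, ← Finset.prod_mul_distrib, ← Fintype.card_coe O,
      ← Finset.card_univ, ← Finset.prod_const]
    exact Finset.prod_le_prod (fun i _ => mul_nonneg (Nat.cast_nonneg _) (hz i.1))
      fun i _ => by rw [mul_comm]; exact hout i.1
  have hmult : (mult c').card ≤ (mult c).card := by
    refine (Finset.card_le_card (t := (mult c).image fun f (i : {i // i ∉ O}) => f i.1)
      fun f hf => ?_).trans Finset.card_image_le
    obtain ⟨τ, -, rfl⟩ := Finset.mem_image.1 hf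
    refine Finset.mem_image.2 ⟨c ∘ (Equiv.Perm.ofSubtype τ),
      Finset.mem_image_of_mem _ (Finset.mem_univ _), funext fun i => ?_⟩
    simp only [hc', Function.comp_apply, Equiv.Perm.ofSubtype_apply_coe]
  set s := Fintype.card {i // i ∉ O} with hs
  have hsum : ∑ R ∈ U.powersetCard s, ∏ y ∈ R, g y ≤ A ^ s * ∏ y ∈ U, (2 * g y / A) := by
    have h3 : ∀ R ∈ U.powersetCard s, ∏ y ∈ R, g y = A ^ s * ∏ y ∈ R, g y / A := by
      intro R hRm
      rw [← (Finset.mem_powersetCard.1 hRm).2, ← Finset.prod_const, ← Finset.prod_mul_distrib]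
      exact Finset.prod_congr rfl fun y _ => by field_simp
    rw [Finset.sum_congr rfl h3, ← Finset.mul_sum]
    refine mul_le_mul_of_nonneg_left ?_ (pow_nonneg hA.le _)
    calc ∑ R ∈ U.powersetCard s, ∏ y ∈ R, g y / A
        ≤ ∑ R ∈ U.powerset, ∏ y ∈ R, g y / A := by
          refine Finset.sum_le_sum_of_subset_of_nonneg
            (fun R hR => Finset.mem_powerset.2 (Finset.mem_powersetCard.1 hR).1) fun R hR _ => ?_
          exact Finset.prod_nonneg fun y hy =>
            div_nonneg (hg y (Finset.mem_powerset.1 hR hy)) hA.le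
      _ = ∏ y ∈ U, (1 + g y / A) := (Finset.prod_one_add (s := U) (f := fun y => g y / A)).symm
      _ ≤ ∏ y ∈ U, (2 * g y / A) := by
          refine Finset.prod_le_prod (fun y hy => by
            have := div_nonneg (hg y hy) hA.le; linarith) fun y hy => ?_
          have : 1 ≤ g y / A := (one_le_div hA).2 (hgA y hy)
          rw [mul_div_assoc]; linarith
  have hOs : O.card + s = Fintype.card ι := by
    rw [hs, Fintype.card_subtype_compl, Fintype.card_coe]
    have := Finset.card_le_univ O
    omega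
  have hin : (T₂.card : ℝ) * ∏ i : {i // i ∉ O}, z (c' i) ≤
      ((mult c').card : ℝ) * ∑ R ∈ U.powersetCard s, ∏ y ∈ R, g y := by
    have := inj_count c' D z U g (fun i => hz i.1) hg (fun i => hR i.1)
    refine le_trans (le_of_eq ?_) this
    congr 2
    refine congrArg Finset.card (Finset.ext fun x => ?_)
    simp only [hT₂, Finset.mem_filter, Fintype.mem_piFinset]
  have hz1 : 0 ≤ ∏ i : O, z (c i) := Finset.prod_nonneg fun i _ => hz i.1
  have hz2 : 0 ≤ ∏ i : {i // i ∉ O}, z (c' i) := Finset.prod_nonneg fun i _ => hz i.1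
  calc (F.card : ℝ) * ∏ i, z (c i)
      ≤ ((T₁.card : ℝ) * T₂.card) * ((∏ i : O, z (c i)) * ∏ i : {i // i ∉ O}, z (c' i)) := by
        rw [hprod]
        exact mul_le_mul_of_nonneg_right (by exact_mod_cast hFc) (mul_nonneg hz1 hz2)
    _ = ((T₁.card : ℝ) * ∏ i : O, z (c i)) *
          ((T₂.card : ℝ) * ∏ i : {i // i ∉ O}, z (c' i)) := by ring
    _ ≤ A ^ O.card * (((mult c).card : ℝ) * (A ^ s * ∏ y ∈ U, (2 * g y / A))) := by
        refine mul_le_mul h1 (hin.trans ?_)
          (mul_nonneg (Nat.cast_nonneg _) hz2) (pow_nonneg hA.le _)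
        exact mul_le_mul (by exact_mod_cast hmult) hsum
          (Finset.sum_nonneg fun R hR => Finset.prod_nonneg fun y hy =>
            hg y ((Finset.mem_powersetCard.1 hR).1 hy)) (Nat.cast_nonneg _)
    _ = _ := by rw [← hOs, pow_add]; ring

/-- The total weight of the maps onto a given set. -/
noncomputable def ontoW (p : κ → ℝ) (t : ℕ) (K : Finset κ) : ℝ :=
  ∑ c ∈ (Fintype.piFinset fun _ : Fin t => K).filter (fun c => Finset.univ.image c = K),
    ∏ i, p (c i)

lemma ontoW_le (p : κ → ℝ) : ∀ (t : ℕ) (K : Finset κ), (∀ a ∈ K, 0 ≤ p a) →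
    (∑ a ∈ K, p a ≤ 2) → ontoW p t K ≤ 3 ^ t * ((K.card.factorial : ℝ) * ∏ a ∈ K, p a) := by
  intro t
  induction t with
  | zero =>
    intro K hp _
    rcases K.eq_empty_or_nonempty with rfl | hK
    · simp [ontoW]
    · have : (Fintype.piFinset fun _ : Fin 0 => K).filter
          (fun c => Finset.univ.image c = K) = ∅ := by
        refine Finset.filter_eq_empty_iff.2 fun c _ h => ?_
        rw [Finset.univ_eq_empty, Finset.image_empty] at h
        exact hK.ne_empty h.symm
      unfold ontoW
      rw [this, Finset.sum_empty]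
      exact mul_nonneg (by positivity) (mul_nonneg (Nat.cast_nonneg _) (Finset.prod_nonneg hp))
  | succ t ih =>
    intro K hp hs
    set S := (Fintype.piFinset fun _ : Fin (t + 1) => K).filter
      (fun c => Finset.univ.image c = K) with hS
    set P := (K.card.factorial : ℝ) * ∏ a ∈ K, p a with hP
    have hP0 : 0 ≤ P := mul_nonneg (Nat.cast_nonneg _) (Finset.prod_nonneg hp)
    have hsub : S ⊆ K.biUnion fun a =>
        (((Fintype.piFinset fun _ : Fin t => K).filter (fun c => Finset.univ.image c = K)) ∪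
          ((Fintype.piFinset fun _ : Fin t => K.erase a).filter
            (fun c => Finset.univ.image c = K.erase a))).image fun c => Fin.cons a c := by
      intro c hc
      obtain ⟨hcK, hcim⟩ := Finset.mem_filter.1 hc
      rw [Fintype.mem_piFinset] at hcK
      refine Finset.mem_biUnion.2 ⟨c 0, hcK 0, Finset.mem_image.2 ⟨Fin.tail c, ?_,
        Fin.cons_self_tail c⟩⟩
      have him : ∀ a ∈ K, a ≠ c 0 → a ∈ Finset.univ.image (Fin.tail c) := by
        intro a ha hne
        rw [← hcim] at ha
        obtain ⟨i, -, rfl⟩ := Finset.mem_image.1 ha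
        obtain ⟨j, rfl⟩ := Fin.eq_succ_of_ne_zero (i := i) (fun h => hne (by rw [h]))
        exact Finset.mem_image.2 ⟨j, Finset.mem_univ _, rfl⟩
      by_cases h0 : c 0 ∈ Finset.univ.image (Fin.tail c)
      · refine Finset.mem_union_left _ (Finset.mem_filter.2
          ⟨Fintype.mem_piFinset.2 fun i => hcK i.succ, ?_⟩)
        refine Finset.Subset.antisymm (fun a ha => ?_) fun a ha => ?_
        · obtain ⟨i, -, rfl⟩ := Finset.mem_image.1 ha; exact hcK i.succ
        · by_cases h : a = c 0
          · rw [h]; exact h0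
          · exact him a ha h
      · refine Finset.mem_union_right _ (Finset.mem_filter.2
          ⟨Fintype.mem_piFinset.2 fun i => Finset.mem_erase.2 ⟨?_, hcK i.succ⟩, ?_⟩)
        · exact fun h => h0 (Finset.mem_image.2 ⟨i, Finset.mem_univ _, h⟩)
        refine Finset.Subset.antisymm (fun a ha => ?_) fun a ha => ?_
        · obtain ⟨i, -, rfl⟩ := Finset.mem_image.1 ha
          exact Finset.mem_erase.2
            ⟨fun h => h0 (Finset.mem_image.2 ⟨i, Finset.mem_univ _, h⟩), hcK i.succ⟩
        · exact him a (Finset.mem_erase.1 ha).2 (Finset.mem_erase.1 ha).1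
    have hnn : ∀ {L : Finset κ}, L ⊆ K → ∀ c ∈ (Fintype.piFinset fun _ : Fin t => L).filter
        (fun c => Finset.univ.image c = L), 0 ≤ ∏ i, p (c i) := fun {L} hL c hc =>
      Finset.prod_nonneg fun i _ =>
        hp _ (hL (Fintype.mem_piFinset.1 (Finset.mem_filter.1 hc).1 i))
    have hstep : ontoW p (t + 1) K ≤ ∑ a ∈ K, p a * (ontoW p t K + ontoW p t (K.erase a)) := by
      unfold ontoW
      refine (Finset.sum_le_sum_of_subset_of_nonneg hsub ?_).trans ?_
      · intro c hc _
        obtain ⟨a, ha, hc'⟩ := Finset.mem_biUnion.1 hc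
        obtain ⟨d, hd, rfl⟩ := Finset.mem_image.1 hc'
        rw [Fin.prod_univ_succ]
        simp only [Fin.cons_zero, Fin.cons_succ]
        rcases Finset.mem_union.1 hd with h | h
        · exact mul_nonneg (hp a ha) (hnn subset_rfl d h)
        · exact mul_nonneg (hp a ha) (hnn (Finset.erase_subset _ _) d h)
      rw [Finset.sum_biUnion]
      · refine Finset.sum_le_sum fun a ha => ?_
        rw [Finset.sum_image fun x _ y _ h => Fin.cons_right_injective (α := fun _ => κ) a h]
        simp only [Fin.prod_univ_succ, Fin.cons_zero, Fin.cons_succ]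
        rw [← Finset.mul_sum]
        refine mul_le_mul_of_nonneg_left ?_ (hp a ha)
        refine le_of_eq (Finset.sum_union ?_)
        refine Finset.disjoint_left.2 fun d h h' => ?_
        have h1 := (Finset.mem_filter.1 h).2
        have h2 := (Finset.mem_filter.1 h').2
        rw [h1] at h2
        exact Finset.notMem_erase a K (h2 ▸ ha)
      · intro a _ b _ hab
        refine Finset.disjoint_left.2 fun c hc hc' => hab ?_
        obtain ⟨d, -, rfl⟩ := Finset.mem_image.1 hc
        obtain ⟨d', -, h⟩ := Finset.mem_image.1 hc'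
        exact (by simpa using congrFun h.symm 0)
    refine hstep.trans ?_
    have h1 := ih K hp hs
    have h2 : ∀ a ∈ K, p a * ontoW p t (K.erase a) ≤ 3 ^ t * (P / K.card) := by
      intro a ha
      have hk : 0 < K.card := Finset.card_pos.2 ⟨a, ha⟩
      have := ih (K.erase a) (fun b hb => hp b (Finset.erase_subset _ _ hb))
        ((Finset.sum_le_sum_of_subset_of_nonneg (Finset.erase_subset _ _)
          fun b hb _ => hp b hb).trans hs)
      refine (mul_le_mul_of_nonneg_left this (hp a ha)).trans (le_of_eq ?_)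
      have hfac : (K.card.factorial : ℝ) = (K.card : ℝ) * ((K.erase a).card.factorial : ℝ) := by
        rw [Finset.card_erase_of_mem ha]
        exact_mod_cast (Nat.mul_factorial_pred hk.ne').symm
      rw [hP, ← Finset.mul_prod_erase K p ha, hfac]
      field_simp
    calc ∑ a ∈ K, p a * (ontoW p t K + ontoW p t (K.erase a))
        = (∑ a ∈ K, p a) * ontoW p t K + ∑ a ∈ K, p a * ontoW p t (K.erase a) := by
          rw [Finset.sum_mul, ← Finset.sum_add_distrib]; simp only [mul_add]
      _ ≤ 2 * (3 ^ t * P) + ∑ _a ∈ K, 3 ^ t * (P / K.card) := by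
          refine add_le_add (mul_le_mul hs h1 ?_ (by norm_num)) (Finset.sum_le_sum h2)
          exact Finset.sum_nonneg (hnn subset_rfl)
      _ ≤ 3 ^ (t + 1) * P := by
          rw [Finset.sum_const, nsmul_eq_mul, pow_succ]
          have : (K.card : ℝ) * (3 ^ t * (P / K.card)) ≤ 3 ^ t * P := by
            rcases Nat.eq_zero_or_pos K.card with h | h
            · rw [h]; simp; positivity
            · refine le_of_eq ?_; field_simp
          nlinarith

end Vale.Agent.P064.Tree
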