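import Vale.Agent.P064.Tree.Types
import Vale.Agent.P064.BoundedDegree

/-! Sparsity bounds the pool of each witness type in a labelled rooted forest.

A vertex carries a context of `k` vertices. The label says how the context arises from the context
of the parent and which context vertices are its neighbours among earlier vertices. -/

namespace Vale.Agent.P064.Tree

open Finset
open scoped Classical Pointwise

variable {n K : ℕ}

/-- Labels: the origin of each context position and the positions of edges. -/
abbrev Lb (K : ℕ) := (Fin K → Option (Fin K)) × Finset (Fin K)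

/-- The context of a child with label `l` of a vertex `w` with context `c`. -/
def nxt (l : Lb K) (c : Fin K → Fin n) (w : Fin n) : Fin K → Fin n :=
  fun j => ((l.1 j).map c).getD w

/-- The edges from `y` into its context. -/
noncomputable def own (l : Lb K) (c : Fin K → Fin n) (y : Fin n) : Finset (Sym2 (Fin n)) :=
  l.2.image fun j => s(y, c j)

/-- Children in a parent structure. -/
noncomputable def chn (par : Fin n → Option (Fin n)) (u : Fin n) : Finset (Fin n) :=
  Finset.univ.filter fun y => par y = some u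

/-- The ancestor `j` steps up. -/
def anc (par : Fin n → Option (Fin n)) : ℕ → Fin n → Option (Fin n)
  | 0, w => some w
  | j + 1, w => (anc par j w).bind par

/-- Edge sets of abstract realisations of a type at a vertex with a given context. -/
noncomputable def absT : (k : ℕ) → Ty (Lb K) k → Fin n → (Fin K → Fin n) →
    Finset (Finset (Sym2 (Fin n)))
  | 0, _, _, _ => {∅}
  | k + 1, T, x, c =>
    (T.2.pi fun a =>
      ((Finset.univ : Finset (Fin n)).powersetCard a.2).sigma fun P =>
        P.pi fun y => absT k a.1 y (nxt (labOf k a.1) c x)).image fun f =>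
      T.2.attach.biUnion fun a =>
        (f a.1 a.2).1.attach.biUnion fun y =>
          own (labOf k a.1.1) (nxt (labOf k a.1.1) c x) y.1 ∪ (f a.1 a.2).2 y.1 y.2

/-- An upper bound for the number of realisations at a vertex. -/
noncomputable def numT (n : ℕ) : (k : ℕ) → Ty (Lb K) k → ℕ
  | 0, _ => 1
  | k + 1, T => ∏ a ∈ T.2, n.choose a.2 * numT n k a.1 ^ a.2

/-- Number of edges of a realisation. -/
noncomputable def sz : (k : ℕ) → Ty (Lb K) k → ℕ
  | 0, _ => 0
  | k + 1, T => ∑ a ∈ T.2, a.2 * ((labOf k a.1).2.card + sz k a.1)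

lemma absT_card_le : ∀ (k : ℕ) (T : Ty (Lb K) k) (x : Fin n) (c : Fin K → Fin n),
    (absT k T x c).card ≤ numT n k T
  | 0, _, _, _ => by simp [absT, numT]
  | k + 1, T, x, c => by
    rw [absT, numT]
    refine Finset.card_image_le.trans ?_
    rw [Finset.card_pi]
    refine Finset.prod_le_prod (fun a _ => Nat.zero_le _) fun a _ => ?_
    rw [Finset.card_sigma]
    refine (Finset.sum_le_card_nsmul _ _ (numT n k a.1 ^ a.2) fun P hP => ?_).trans (le_of_eq ?_)
    · rw [Finset.card_pi, ← (Finset.mem_powersetCard.1 hP).2]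
      exact Finset.prod_le_pow_card _ _ _ fun y _ => absT_card_le k a.1 y _
    · rw [Finset.card_powersetCard, Finset.card_univ, Fintype.card_fin, smul_eq_mul]

lemma smul_biUnion' {α : Type*} (g : Equiv.Perm (Fin n)) (s : Finset α)
    (f : α → Finset (Sym2 (Fin n))) : g • s.biUnion f = s.biUnion fun a => g • f a := by
  simp only [Finset.smul_finset_def, Finset.biUnion_image]

lemma nxt_smul (g : Equiv.Perm (Fin n)) (l : Lb K) (c : Fin K → Fin n) (x : Fin n) :
    nxt l (g ∘ c) (g x) = g ∘ nxt l c x := by
  funext j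
  cases h : l.1 j <;> simp [nxt, h]

lemma own_smul (g : Equiv.Perm (Fin n)) (l : Lb K) (c : Fin K → Fin n) (y : Fin n) :
    g • own l c y = own l (g ∘ c) (g y) := by
  simp only [own, Finset.smul_finset_def, Finset.image_image]
  refine Finset.image_congr fun j _ => ?_
  simp [perm_sym2_smul]

lemma absT_smul (g : Equiv.Perm (Fin n)) : ∀ (k : ℕ) (T : Ty (Lb K) k) (x : Fin n)
    (c : Fin K → Fin n) (U : Finset (Sym2 (Fin n))), U ∈ absT k T x c →
      g • U ∈ absT k T (g x) (g ∘ c)
  | 0, _, _, _, U, hU => by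
    simp only [absT, Finset.mem_singleton] at hU ⊢
    subst hU; simp
  | k + 1, T, x, c, U, hU => by
    rw [absT] at hU ⊢
    obtain ⟨f, hf, rfl⟩ := Finset.mem_image.1 hU
    rw [Finset.mem_pi] at hf
    have hback : ∀ {P : Finset (Fin n)} {y : Fin n}, y ∈ P.image g → g.symm y ∈ P := by
      intro P y hy
      obtain ⟨z, hz, rfl⟩ := Finset.mem_image.1 hy
      rwa [Equiv.symm_apply_apply]
    have hcongr : ∀ (P : Finset (Fin n)) (F : ∀ y ∈ P, Finset (Sym2 (Fin n))) (y z : Fin n)
        (hy : y ∈ P) (hz : z ∈ P), y = z → F y hy = F z hz := by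
      intro P F y z hy hz h
      subst h
      rfl
    refine Finset.mem_image.2 ⟨fun a ha =>
      ⟨(f a ha).1.image g, fun y hy => g • (f a ha).2 (g.symm y) (hback hy)⟩, ?_, ?_⟩
    · rw [Finset.mem_pi]
      intro a ha
      obtain ⟨h1, h2⟩ := Finset.mem_sigma.1 (hf a ha)
      refine Finset.mem_sigma.2 ⟨Finset.mem_powersetCard.2 ⟨Finset.subset_univ _, ?_⟩, ?_⟩
      · show ((f a ha).1.image g).card = a.2
        rw [Finset.card_image_of_injective _ g.injective, (Finset.mem_powersetCard.1 h1).2]
      · rw [Finset.mem_pi] at h2 ⊢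
        intro y hy
        have := absT_smul g k a.1 _ _ _ (h2 (g.symm y) (hback hy))
        rw [Equiv.apply_symm_apply, ← nxt_smul] at this
        exact this
    · rw [smul_biUnion']
      refine Finset.biUnion_congr rfl fun a _ => ?_
      rw [smul_biUnion']
      ext e
      simp only [Finset.mem_biUnion, Finset.mem_attach, true_and, Subtype.exists]
      constructor
      · rintro ⟨y, hy, he⟩
        obtain ⟨z, hz, rfl⟩ := Finset.mem_image.1 hy
        refine ⟨z, hz, ?_⟩
        rw [hcongr _ (f a.1 a.2).2 (g.symm (g z)) z _ hz (g.symm_apply_apply z)] at he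
        rw [Finset.smul_finset_union, own_smul, ← nxt_smul]
        exact he
      · rintro ⟨z, hz, he⟩
        refine ⟨g z, Finset.mem_image_of_mem g hz, ?_⟩
        rw [hcongr _ (f a.1 a.2).2 (g.symm (g z)) z _ hz (g.symm_apply_apply z)]
        rw [Finset.smul_finset_union, own_smul, ← nxt_smul] at he
        exact he

/-- A labelled rooted forest inside an edge set. -/
structure Host (E : Finset (Sym2 (Fin n))) (K : ℕ) where
  /-- the parent -/
  par : Fin n → Option (Fin n)
  /-- a height decreasing to the parent and along edges -/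
  dp : Fin n → ℕ
  /-- the label -/
  lab : Fin n → Lb K
  /-- the context -/
  cx : Fin n → Fin K → Fin n
  hdp : ∀ u w, par u = some w → dp w < dp u
  hcx : ∀ u w, par u = some w → cx u = nxt (lab u) (cx w) w
  hroot : ∀ u, par u = none → cx u = fun _ => u
  hlow : ∀ u, ∀ j ∈ (lab u).2, dp (cx u j) < dp u
  hinj : ∀ u, Set.InjOn (cx u) ((lab u).2 : Set (Fin K))
  hedge : ∀ u, ∀ j ∈ (lab u).2, s(u, cx u j) ∈ E

variable {E : Finset (Sym2 (Fin n))}

/-- The edges owned by a vertex. -/
noncomputable def Host.edges (h : Host E K) (u : Fin n) : Finset (Sym2 (Fin n)) :=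
  own (h.lab u) (h.cx u) u

lemma Host.edges_card (h : Host E K) (u : Fin n) : (h.edges u).card = (h.lab u).2.card := by
  refine Finset.card_image_of_injOn fun i hi j hj hij => h.hinj u hi hj ?_
  exact Sym2.congr_right.1 hij

lemma Host.owner_unique (h : Host E K) {e : Sym2 (Fin n)} {a b : Fin n} (ha : e ∈ h.edges a)
    (hb : e ∈ h.edges b) : a = b := by
  obtain ⟨i, hi, rfl⟩ := Finset.mem_image.1 ha
  obtain ⟨j, hj, he⟩ := Finset.mem_image.1 hb
  rcases Sym2.eq_iff.1 he with ⟨h', -⟩ | ⟨h1, h2⟩
  · exact h'.symm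
  · have := h.hlow a i hi
    have := h.hlow b j hj
    have e1 := congrArg h.dp h1
    have e2 := congrArg h.dp h2
    omega

lemma anc_two (h : Host E K) : ∀ (j : ℕ) (w u : Fin n), anc h.par j w = some u →
    h.dp u + j ≤ h.dp w
  | 0, w, u, hw => by simp only [anc, Option.some.injEq] at hw; subst hw; omega
  | j + 1, w, u, hw => by
    simp only [anc, Option.bind_eq_some_iff] at hw
    obtain ⟨v, hv, hvu⟩ := hw
    have := anc_two h j w v hv
    have := h.hdp v u hvu
    omega

lemma anc_add (par : Fin n → Option (Fin n)) (w u : Fin n) : ∀ (i j : ℕ),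
    anc par j w = some u → anc par (j + i) w = anc par i u
  | 0, j, hj => by simpa [anc] using hj
  | i + 1, j, hj => by
    show (anc par (j + i) w).bind par = (anc par i u).bind par
    rw [anc_add par w u i j hj]

/-- If two chains from `w` end at vertices with the same parent status, they are equal. -/
lemma anc_unique (h : Host E K) {j i : ℕ} {w y y' : Fin n} (hj : anc h.par j w = some y)
    (hi : anc h.par i w = some y') (hp : h.par y = h.par y') : y = y' := by
  wlog hij : j ≤ i generalizing j i y y'
  · exact (this hi hj hp.symm (by omega)).symm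
  obtain ⟨d, rfl⟩ := Nat.exists_eq_add_of_le hij
  rw [anc_add h.par w y d j hj] at hi
  rcases d with _ | d
  · exact Option.some.inj hi
  exfalso
  rcases hy : h.par y with _ | u
  · have : anc h.par (1 + d) y = none := by
      clear hi hij
      induction d with
      | zero => simp [anc, hy]
      | succ d ih => show (anc h.par (1 + d) y).bind h.par = none; rw [ih]; rfl
    rw [add_comm d 1] at hi
    rw [this] at hi
    exact absurd hi (by simp)
  · have h1 : anc h.par 1 y = some u := by simp [anc, hy]
    rw [add_comm d 1, anc_add h.par y u d 1 h1] at hi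
    have h2 := anc_two h d u y' hi
    have h3 := h.hdp y' u (hp ▸ hy)
    omega

/-- Owned edges strictly below `u`. -/
def Below (h : Host E K) (u : Fin n) (U : Finset (Sym2 (Fin n))) : Prop :=
  ∀ e ∈ U, ∃ w, e ∈ h.edges w ∧ ∃ j, 1 ≤ j ∧ anc h.par j w = some u

lemma exists_witness (h : Host E K) : ∀ (k : ℕ) (T : Ty (Lb K) k) (u : Fin n),
    Has h.lab (chn h.par) k T u →
      ∃ U, U ∈ absT k T u (h.cx u) ∧ U.card = sz k T ∧ Below h u U
  | 0, _, _, _ => ⟨∅, by simp [absT], by simp [sz], by simp [Below]⟩
  | k + 1, T, u, hT => by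
    obtain ⟨-, Q, hQ, hQd⟩ := hT
    have hex : ∀ (a : Ty (Lb K) k × ℕ) (y : Fin n), ∃ U, a ∈ T.2 → y ∈ Q a →
        U ∈ absT k a.1 y (h.cx y) ∧ U.card = sz k a.1 ∧ Below h y U := by
      intro a y
      by_cases hh : a ∈ T.2 ∧ y ∈ Q a
      · obtain ⟨U, hU⟩ := exists_witness h k a.1 y ((hQ a hh.1).2.2 y hh.2)
        exact ⟨U, fun _ _ => hU⟩
      · exact ⟨∅, fun h1 h2 => absurd ⟨h1, h2⟩ hh⟩
    choose U hU using hex
    have hpar : ∀ a ∈ T.2, ∀ y ∈ Q a, h.par y = some u := fun a ha y hy =>
      (Finset.mem_filter.1 ((hQ a ha).1 hy)).2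
    set block : Ty (Lb K) k × ℕ → Fin n → Finset (Sym2 (Fin n)) :=
      fun a y => h.edges y ∪ U a y with hblock
    have hown : ∀ a ∈ T.2, ∀ y ∈ Q a,
        own (labOf k a.1) (nxt (labOf k a.1) (h.cx u) u) y = h.edges y ∧
          nxt (labOf k a.1) (h.cx u) u = h.cx y := by
      intro a ha y hy
      have hl := ((hQ a ha).2.2 y hy).lab_eq
      have hc := h.hcx y u (hpar a ha y hy)
      rw [hl] at hc
      exact ⟨by rw [Host.edges, hl, hc], hc.symm⟩
    refine ⟨T.2.biUnion fun a => (Q a).biUnion fun y => block a y, ?_, ?_, ?_⟩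
    · rw [absT]
      refine Finset.mem_image.2 ⟨fun a _ => ⟨Q a, fun y _ => U a y⟩, ?_, ?_⟩
      · rw [Finset.mem_pi]
        refine fun a ha => Finset.mem_sigma.2 ⟨Finset.mem_powersetCard.2
          ⟨Finset.subset_univ _, (hQ a ha).2.1⟩, Finset.mem_pi.2 fun y hy => ?_⟩
        rw [(hown a ha y hy).2]
        exact (hU a y ha hy).1
      · ext e
        simp only [hblock, Finset.mem_biUnion, Finset.mem_attach, true_and, Subtype.exists,
          Finset.mem_union]
        constructor
        · rintro ⟨a, ha, y, hy, he⟩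
          rw [(hown a ha y hy).1] at he
          exact ⟨a, ha, y, hy, he⟩
        · rintro ⟨a, ha, y, hy, he⟩
          refine ⟨a, ha, y, hy, ?_⟩
          rw [(hown a ha y hy).1]
          exact he
    · have hkey : ∀ a ∈ T.2, ∀ y ∈ Q a, ∀ e ∈ block a y,
          ∃ w, e ∈ h.edges w ∧ ∃ j, anc h.par j w = some y := by
        intro a ha y hy e he
        rcases Finset.mem_union.1 he with he | he
        · exact ⟨y, he, 0, rfl⟩
        · obtain ⟨w, hw, j, -, hj⟩ := (hU a y ha hy).2.2 e he
          exact ⟨w, hw, j, hj⟩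
      have huniq : ∀ a ∈ T.2, ∀ y ∈ Q a, ∀ a' ∈ T.2, ∀ y' ∈ Q a', ∀ e,
          e ∈ block a y → e ∈ block a' y' → y = y' := by
        intro a ha y hy a' ha' y' hy' e he he'
        obtain ⟨w, hw, j, hj⟩ := hkey a ha y hy e he
        obtain ⟨v, hv, i, hi⟩ := hkey a' ha' y' hy' e he'
        obtain rfl := h.owner_unique hw hv
        exact anc_unique h hj hi ((hpar a ha y hy).trans (hpar a' ha' y' hy').symm)
      rw [sz, Finset.card_biUnion]
      · refine Finset.sum_congr rfl fun a ha => ?_
        rw [Finset.card_biUnion]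
        · rw [← (hQ a ha).2.1, ← smul_eq_mul, ← Finset.sum_const]
          refine Finset.sum_congr rfl fun y hy => ?_
          rw [hblock, Finset.card_union_of_disjoint, (hU a y ha hy).2.1, h.edges_card,
            ((hQ a ha).2.2 y hy).lab_eq]
          refine Finset.disjoint_left.2 fun e he he' => ?_
          obtain ⟨w, hw, j, hj1, hj⟩ := (hU a y ha hy).2.2 _ he'
          obtain rfl := h.owner_unique he hw
          have := anc_two h j y y hj
          omega
        · intro y hy y' hy' hne
          exact Finset.disjoint_left.2 fun e he he' => hne (huniq a ha y hy a ha y' hy' e he he')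
      · intro a ha a' ha' hne
        refine Finset.disjoint_left.2 fun e he he' => ?_
        obtain ⟨y, hy, he⟩ := Finset.mem_biUnion.1 he
        obtain ⟨y', hy', he'⟩ := Finset.mem_biUnion.1 he'
        obtain rfl := huniq a ha y hy a' ha' y' hy' e he he'
        exact Finset.disjoint_left.1 (hQd ha ha' hne) hy hy'
    · intro e he
      obtain ⟨a, ha, he⟩ := Finset.mem_biUnion.1 he
      obtain ⟨y, hy, he⟩ := Finset.mem_biUnion.1 he
      rcases Finset.mem_union.1 he with he | he
      · exact ⟨y, he, 1, le_rfl, by simp [anc, hpar a ha y hy]⟩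
      · obtain ⟨w, hw, j, hj1, hj⟩ := (hU a y ha hy).2.2 e he
        exact ⟨w, hw, j + 1, by omega, by simp [anc, hj, hpar a ha y hy]⟩

/-- The expected number of extensions with a label. -/
noncomputable def lamE (n : ℕ) (q : ℝ) (l : Lb K) : ℝ := (n : ℝ) * q ^ l.2.card

lemma num_weight_le {q : ℝ} (hq : 0 < q) (hn : 0 < n) : ∀ (k : ℕ) (T : Ty (Lb K) k),
    (numT n k T : ℝ) * q ^ sz k T * vw (lamE n q) k T ≤ 1
  | 0, _ => by simp [numT, sz, vw]
  | k + 1, T => by
    rw [numT, sz, vw, Nat.cast_prod, ← Finset.prod_pow_eq_pow_sum, ← Finset.prod_mul_distrib,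
      ← Finset.prod_mul_distrib]
    have hlam : ∀ l : Lb K, 0 < lamE n q l := fun l => by unfold lamE; positivity
    have hv := fun a => vw_nonneg (lam := lamE (K := K) n q) (fun l => (hlam l).le) k a
    refine Finset.prod_le_one (fun a _ => ?_) fun a _ => ?_
    · have := hv a.1
      have := hlam (labOf k a.1)
      positivity
    have ih := num_weight_le hq hn k a.1
    set D := a.2
    set l := labOf k a.1
    have hv' := hv a.1
    have hc : (n.choose D : ℝ) * (D.factorial : ℝ) ≤ (n : ℝ) ^ D := by
      have h2 : n.choose D * D.factorial ≤ n ^ D := by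
        rw [mul_comm, ← Nat.descFactorial_eq_factorial_mul_choose]
        exact Nat.descFactorial_le_pow n D
      exact_mod_cast h2
    calc ((n.choose D * numT n k a.1 ^ D : ℕ) : ℝ) * q ^ (D * (l.2.card + sz k a.1)) *
          ((D.factorial : ℝ) * (vw (lamE n q) k a.1 / lamE n q l) ^ D)
        = ((n.choose D : ℝ) * (D.factorial : ℝ)) *
            (((numT n k a.1 : ℝ) * q ^ sz k a.1 * vw (lamE n q) k a.1) / (n : ℝ)) ^ D := by
          push_cast
          rw [mul_comm D, pow_mul, show
            ((numT n k a.1 : ℝ) * q ^ sz k a.1 * vw (lamE n q) k a.1) / (n : ℝ) =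
              (numT n k a.1 : ℝ) * q ^ (l.2.card + sz k a.1) *
                (vw (lamE n q) k a.1 / lamE n q l) by rw [pow_add, lamE]; field_simp,
            mul_pow, mul_pow]
          ring
      _ ≤ (n : ℝ) ^ D * (1 / (n : ℝ)) ^ D := by
          refine mul_le_mul hc (pow_le_pow_left₀ (by positivity) ?_ D) (by positivity) (by positivity)
          exact div_le_div_of_nonneg_right ih (Nat.cast_nonneg _)
      _ = 1 := by
          rw [← mul_pow, mul_one_div_cancel (by positivity), one_pow]

lemma pool_le {q : ℝ} (hq : 0 < q) (hE : Sparse (Equiv.Perm (Fin n)) q E) (hn : 0 < n)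
    (h : Host E K) (k : ℕ) (T : Ty (Lb K) k) :
    ((Finset.univ.filter fun u => h.par u = none ∧ Has h.lab (chn h.par) k T u).card : ℝ) *
      vw (lamE n q) k T ≤ 6 * n := by
  set S := Finset.univ.filter fun u => h.par u = none ∧ Has h.lab (chn h.par) k T u with hS
  set v := vw (lamE n q) k T with hv
  have hv0 : 0 ≤ v := vw_nonneg (fun l => by unfold lamE; positivity) k T
  rcases Nat.eq_zero_or_pos S.card with h0 | hpos
  · rw [h0]; simp
  have hex : ∀ u, ∃ U, u ∈ S → U ∈ absT k T u (h.cx u) ∧ U.card = sz k T ∧ Below h u U := by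
    intro u
    by_cases hu : u ∈ S
    · obtain ⟨U, hU⟩ := exists_witness h k T u (Finset.mem_filter.1 hu).2.2
      exact ⟨U, fun _ => hU⟩
    · exact ⟨∅, fun h' => absurd h' hu⟩
  choose U hU using hex
  set R := S.card with hR
  set UU := S.biUnion U with hUU
  have hsub : UU ⊆ E := by
    intro e he
    obtain ⟨u, hu, he⟩ := Finset.mem_biUnion.1 he
    obtain ⟨w, hw, -⟩ := (hU u hu).2.2 e he
    obtain ⟨j, hj, rfl⟩ := Finset.mem_image.1 hw
    exact h.hedge w j hj
  have hcard : UU.card = R * sz k T := by
    rw [hUU, Finset.card_biUnion, Finset.sum_congr rfl fun u hu => (hU u hu).2.1,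
      Finset.sum_const, smul_eq_mul]
    intro u hu u' hu' hne
    refine Finset.disjoint_left.2 fun e he he' => hne ?_
    obtain ⟨w, hw, j, -, hj⟩ := (hU u hu).2.2 e he
    obtain ⟨x, hx, i, -, hi⟩ := (hU u' hu').2.2 e he'
    obtain rfl := h.owner_unique hw hx
    exact anc_unique h hj hi
      ((Finset.mem_filter.1 hu).2.1.trans (Finset.mem_filter.1 hu').2.1.symm)
  set OU := (Finset.univ : Finset (Equiv.Perm (Fin n))).image fun g => g • UU with hOU
  have hOUle : OU.card ≤ n.choose R * numT n k T ^ R := by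
    calc OU.card ≤ (((Finset.univ : Finset (Fin n)).powersetCard R).biUnion fun S' =>
          (S'.pi fun x => absT k T x (fun _ => x)).image fun f =>
            S'.attach.biUnion fun x => f x.1 x.2).card := by
          refine Finset.card_le_card fun Z hZ => ?_
          obtain ⟨g, -, rfl⟩ := Finset.mem_image.1 hZ
          refine Finset.mem_biUnion.2 ⟨S.image g, Finset.mem_powersetCard.2
            ⟨Finset.subset_univ _, Finset.card_image_of_injective _ g.injective⟩,
            Finset.mem_image.2 ⟨fun x _ => g • U (g.symm x), Finset.mem_pi.2 fun x hx => ?_, ?_⟩⟩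
          · obtain ⟨u, hu, rfl⟩ := Finset.mem_image.1 hx
            rw [Equiv.symm_apply_apply]
            have hg := absT_smul g k T u _ _ (hU u hu).1
            rw [h.hroot u (Finset.mem_filter.1 hu).2.1] at hg
            exact hg
          · rw [hUU, smul_biUnion']
            ext e
            simp
      _ ≤ ((Finset.univ : Finset (Fin n)).powersetCard R).card * numT n k T ^ R := by
          refine Finset.card_biUnion_le_card_mul _ _ _ fun S' hS' => ?_
          refine Finset.card_image_le.trans ?_
          rw [Finset.card_pi, ← (Finset.mem_powersetCard.1 hS').2]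
          exact Finset.prod_le_pow_card _ _ _ fun x _ => absT_card_le k T x _
      _ = _ := by rw [Finset.card_powersetCard, Finset.card_univ, Fintype.card_fin]
  set N := Fintype.card (Equiv.Perm (Fin n)) with hN
  have hN0 : (0 : ℝ) < (N : ℝ) := by exact_mod_cast Fintype.card_pos
  have h1 : (1 : ℝ) ≤ 2 * (n.choose R : ℝ) * ((numT n k T : ℝ) * q ^ sz k T) ^ R := by
    refine le_of_mul_le_mul_right ?_ hN0
    rw [one_mul]
    calc (N : ℝ) = (OU.card : ℝ) * (stab (Equiv.Perm (Fin n)) UU : ℝ) := by
          exact_mod_cast (BDeg.orbit_mul_stab UU).symm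
      _ ≤ ((n.choose R * numT n k T ^ R : ℕ) : ℝ) * (2 * q ^ UU.card * (N : ℝ)) :=
          mul_le_mul (by exact_mod_cast hOUle) (hE UU hsub) (Nat.cast_nonneg _) (Nat.cast_nonneg _)
      _ = _ := by rw [hcard, mul_comm R, pow_mul, mul_pow]; push_cast; ring
  have hR0 : (0 : ℝ) < R := by exact_mod_cast hpos
  have h2 : v ^ R ≤ 2 * (n.choose R : ℝ) := by
    calc v ^ R ≤ (2 * (n.choose R : ℝ) * ((numT n k T : ℝ) * q ^ sz k T) ^ R) * v ^ R :=
          le_mul_of_one_le_left (pow_nonneg hv0 R) h1
      _ = 2 * (n.choose R : ℝ) * ((numT n k T : ℝ) * q ^ sz k T * v) ^ R := by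
          rw [mul_pow _ v]; ring
      _ ≤ 2 * (n.choose R : ℝ) * 1 := mul_le_mul_of_nonneg_left
          (pow_le_one₀ (by positivity) (num_weight_le hq hn k T)) (by positivity)
      _ = _ := mul_one _
  have hc : (n.choose R : ℝ) ≤ (3 * n / R) ^ R := by
    have h3 := Nat.choose_le_pow_div (α := ℝ) R n
    refine h3.trans ?_
    rw [div_pow, div_le_div_iff₀ (by positivity) (pow_pos hR0 R), mul_pow]
    calc (n : ℝ) ^ R * (R : ℝ) ^ R ≤ (n : ℝ) ^ R * (3 ^ R * (R.factorial : ℝ)) :=
          mul_le_mul_of_nonneg_left (pow_self_le R) (by positivity)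
      _ = _ := by ring
  by_contra hcon
  push Not at hcon
  have hlt : 2 * (3 * n / R) < v := by
    rw [← mul_div_assoc, div_lt_iff₀ hR0]; linarith
  have h4 : (2 * (3 * (n : ℝ) / R)) ^ R < v ^ R :=
    pow_lt_pow_left₀ hlt (by positivity) (by omega)
  rw [mul_pow] at h4
  have h5 : (2 : ℝ) ≤ 2 ^ R := le_self_pow₀ (by norm_num) (by omega)
  have h6 : 0 ≤ (3 * (n : ℝ) / R) ^ R := by positivity
  nlinarith

lemma pot_sum_le {q : ℝ} (hq : 0 < q) (hE : Sparse (Equiv.Perm (Fin n)) q E) (hn : 0 < n)
    (h : Host E K) (k : ℕ) :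
    ∑ u ∈ Finset.univ.filter (fun u => h.par u = none),
      pot h.lab (chn h.par) n (lamE n q) k u ≤ 48 * n := by
  unfold pot
  rw [Finset.sum_comm]
  calc ∑ T ∈ univT (Lb K) n k, ∑ u ∈ Finset.univ.filter (fun u => h.par u = none),
        (if Has h.lab (chn h.par) k T u then pw k T ^ 3 * vw (lamE n q) k T else 0)
      = ∑ T ∈ univT (Lb K) n k, pw k T ^ 3 *
          (((Finset.univ.filter fun u => h.par u = none ∧ Has h.lab (chn h.par) k T u).card : ℝ) *
            vw (lamE n q) k T) := by
        refine Finset.sum_congr rfl fun T _ => ?_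
        rw [← Finset.sum_filter, Finset.sum_const, nsmul_eq_mul, Finset.filter_filter]
        ring
    _ ≤ ∑ T ∈ univT (Lb K) n k, (24 * n) * pw k T := by
        refine Finset.sum_le_sum fun T hT => ?_
        have hp := pw_nonneg k T
        have hp2 : pw k T ≤ 2 :=
          (Finset.single_le_sum (f := pw k) (fun T _ => pw_nonneg k T) hT).trans (pw_sum_le n k)
        refine (mul_le_mul_of_nonneg_left (pool_le hq hE hn h k T) (pow_nonneg hp 3)).trans ?_
        have hp3 : pw k T ^ 3 ≤ 4 * pw k T := by
          nlinarith [mul_nonneg (mul_nonneg hp (by linarith : 0 ≤ 2 - pw k T))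
            (by linarith : 0 ≤ 2 + pw k T)]
        refine (mul_le_mul_of_nonneg_right hp3 (by positivity)).trans (le_of_eq ?_)
        ring
    _ ≤ (24 * n) * 2 := by
        rw [← Finset.mul_sum]
        exact mul_le_mul_of_nonneg_left (pw_sum_le n k) (by positivity)
    _ = _ := by ring

end Vale.Agent.P064.Tree
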