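import Vale.Agent.P064.Tree.Host

/-! Counting placements of a rooted pattern forest, layer by layer. -/

namespace Vale.Agent.P064.Tree

open Finset
open scoped Classical

variable {n : ℕ} {ι : Type*} [Fintype ι] {Lab : Type} [Fintype Lab] [Nonempty Lab]

/-- Placements of the layers below `j`, constant on the other vertices. -/
noncomputable def adm (par : Fin n → Option (Fin n)) (lab : Fin n → Lab) (x₀ : Fin n)
    (π : ι → Option ι) (σ : ι → Lab) (δ : ι → ℕ) (j : ℕ) : Finset (ι → Fin n) :=
  Finset.univ.filter fun f => (∀ x, j ≤ δ x → f x = x₀) ∧
    (∀ x y, δ x < j → δ y < j → f x = f y → x = y) ∧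
    (∀ x y, δ x < j → π x = some y → par (f x) = some (f y)) ∧
    ∀ x, δ x < j → (π x = none → par (f x) = none) ∧ lab (f x) = σ x

theorem placements_le (par : Fin n → Option (Fin n)) (lab : Fin n → Lab) {lam : Lab → ℝ}
    (hlam : ∀ l, 0 < lam l) (hn : 0 < n)
    (hsum : ∀ k, ∑ u ∈ Finset.univ.filter (fun u => par u = none),
      pot lab (chn par) n lam k u ≤ 48 * n)
    (π : ι → Option ι) (σ : ι → Lab) (δ : ι → ℕ) (hπ : ∀ x y, π x = some y → δ x = δ y + 1) :
    ((Finset.univ.filter fun f : ι → Fin n => Function.Injective f ∧
        (∀ x y, π x = some y → par (f x) = some (f y)) ∧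
        ∀ x, (π x = none → par (f x) = none) ∧ lab (f x) = σ x).card : ℝ) ≤
      (∏ x ∈ Finset.univ.filter (fun x => π x ≠ none),
          stepConst * (Fintype.card Lab : ℝ) ^ 3 * lam (σ x)) *
        (48 * (n : ℝ) * (Fintype.card Lab : ℝ) ^ 3) ^
          (Finset.univ.filter fun x => π x = none).card := by
  set L : ℝ := (Fintype.card Lab : ℝ) with hLdef
  have hL : 0 < L := by rw [hLdef]; exact_mod_cast Fintype.card_pos
  set M := Finset.univ.sup δ + 1 with hM
  have hδ : ∀ x, δ x < M := fun x => Nat.lt_succ_of_le (Finset.le_sup (Finset.mem_univ x))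
  set x₀ : Fin n := ⟨0, hn⟩
  set Φ : ℕ → Fin n → ℝ := fun k u => L ^ 3 * pot lab (chn par) n lam k u with hΦ
  have hΦ0 : ∀ k u, 0 ≤ Φ k u := fun k u =>
    mul_nonneg (by positivity) (pot_nonneg _ _ _ (fun l => (hlam l).le) k u)
  set wt : ι → ℝ := fun x => stepConst * L ^ 3 * lam (σ x) with hwt
  have hwt0 : ∀ x, 0 ≤ wt x := fun x =>
    mul_nonneg (mul_nonneg stepConst_pos.le (by positivity)) (hlam _).le
  set Nf : ℕ → ℝ := fun j => ∑ f ∈ adm par lab x₀ π σ δ j,
    ∏ x ∈ Finset.univ.filter (fun x => δ x + 1 = j), Φ (M - j) (f x) with hNf
  set R : ℕ → Finset ι := fun j => Finset.univ.filter fun x => π x = none ∧ δ x < j with hR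
  set Sn : ℕ → Finset ι := fun j => Finset.univ.filter fun x => π x ≠ none ∧ δ x < j with hSn
  have key : ∀ j ≤ M,
      Nf j ≤ (∏ x ∈ Sn j, wt x) * (48 * (n : ℝ) * L ^ 3) ^ (R j).card := by
    intro j
    induction j with
    | zero =>
      intro _
      have h1 : (adm par lab x₀ π σ δ 0).card ≤ 1 := by
        refine Finset.card_le_one.2 fun f hf g hg => funext fun x => ?_
        rw [(Finset.mem_filter.1 hf).2.1 x (Nat.zero_le _),
          (Finset.mem_filter.1 hg).2.1 x (Nat.zero_le _)]
      simp only [hNf, hR, hSn, Nat.succ_ne_zero, not_lt_zero, and_false, Finset.filter_false,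
        Finset.prod_empty, Finset.sum_const, nsmul_eq_mul, mul_one, Finset.card_empty, pow_zero]
      exact_mod_cast h1
    | succ j ih =>
      intro hj
      have ih := ih (by omega)
      set kk := M - (j + 1) with hkk
      have hk1 : M - j = kk + 1 := by omega
      set Ly := Finset.univ.filter fun x => δ x = j with hLy
      set Lr := Ly.filter fun x => π x = none with hLr
      set Lc := Ly.filter fun x => π x ≠ none with hLc
      set Pa := Finset.univ.filter fun x => δ x + 1 = j with hPa
      set C : ι → Finset ι := fun p => Lc.filter fun x => π x = some p with hC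
      set rs : (ι → Fin n) → (ι → Fin n) := fun g x => if δ x < j then g x else x₀ with hrs
      have hmaps : ∀ g ∈ adm par lab x₀ π σ δ (j + 1), rs g ∈ adm par lab x₀ π σ δ j := by
        intro g hg
        obtain ⟨-, h2, h3, h4⟩ := (Finset.mem_filter.1 hg).2
        refine Finset.mem_filter.2 ⟨Finset.mem_univ _, fun x hx => if_neg (by omega),
          fun x y hx hy h => ?_, fun x y hx hxy => ?_, fun x hx => ?_⟩
        · simp only [hrs, if_pos hx, if_pos hy] at h
          exact h2 x y (by omega) (by omega) h
        · have := hπ x y hxy
          simp only [hrs, if_pos hx, if_pos (show δ y < j by omega)]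
          exact h3 x y (by omega) hxy
        · simp only [hrs, if_pos hx]
          exact h4 x (by omega)
      have hfibre : ∀ f ∈ adm par lab x₀ π σ δ j,
          ∑ g ∈ (adm par lab x₀ π σ δ (j + 1)).filter (fun g => rs g = f),
            ∏ x ∈ Finset.univ.filter (fun x => δ x + 1 = j + 1), Φ kk (g x) ≤
          ((∏ x ∈ Lc, wt x) * (48 * (n : ℝ) * L ^ 3) ^ Lr.card) *
            ∏ x ∈ Pa, Φ (M - j) (f x) := by
        intro f _
        rw [show (Finset.univ.filter fun x => δ x + 1 = j + 1) = Ly by
          rw [hLy]; simp only [Nat.add_right_cancel_iff]]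
        set F := (adm par lab x₀ π σ δ (j + 1)).filter fun g => rs g = f with hF
        set e : ∀ p, Fin (C p).card ≃ C p := fun p => (C p).equivFin.symm with he
        set A₁ := Fintype.piFinset fun _ : Lr => Finset.univ.filter (fun u => par u = none) with hA₁
        set A₂ := Fintype.piFinset fun p : Pa =>
          ((Fintype.piFinset fun _ : Fin (C p).card => chn par (f p)).filter Function.Injective).filter
            (fun b => ∀ i, lab (b i) = σ (e p i)) with hA₂
        set enc : (ι → Fin n) → (Lr → Fin n) × ((p : Pa) → Fin (C p).card → Fin n) := fun g =>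
          (fun x => g x, fun p i => g (e p i)) with henc
        set w : (Lr → Fin n) × ((p : Pa) → Fin (C p).card → Fin n) → ℝ := fun z =>
          (∏ x : Lr, Φ kk (z.1 x)) * ∏ p : Pa, ∏ i, Φ kk (z.2 p i) with hw
        have hCmem : ∀ p x, x ∈ C p → δ x = j ∧ π x = some p := fun p x hx => by
          simp only [hC, hLc, hLy, Finset.mem_filter, Finset.mem_univ, true_and] at hx
          exact ⟨hx.1.1, hx.2⟩
        have hprod : ∀ g : ι → Fin n, ∏ x ∈ Ly, Φ kk (g x) = w (enc g) := by
          intro g
          simp only [hw, henc]
          rw [← Finset.prod_filter_mul_prod_filter_not Ly (fun x => π x = none), ← hLr,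
            Finset.prod_coe_sort Lr (fun x => Φ kk (g x))]
          congr 1
          calc ∏ x ∈ Lc, Φ kk (g x)
              = ∏ x ∈ Pa.biUnion C, Φ kk (g x) := by
                refine Finset.prod_congr ?_ fun _ _ => rfl
                ext x
                constructor
                · intro hx
                  obtain ⟨hxLy, hxn⟩ := Finset.mem_filter.1 hx
                  obtain ⟨p, hp⟩ := Option.ne_none_iff_exists'.1 hxn
                  refine Finset.mem_biUnion.2 ⟨p, Finset.mem_filter.2 ⟨Finset.mem_univ _, ?_⟩,
                    Finset.mem_filter.2 ⟨hx, hp⟩⟩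
                  have h := (Finset.mem_filter.1 hxLy).2
                  have := hπ x p hp
                  omega
                · intro hx
                  obtain ⟨p, -, hp⟩ := Finset.mem_biUnion.1 hx
                  exact (Finset.mem_filter.1 hp).1
            _ = ∏ p ∈ Pa, ∏ x ∈ C p, Φ kk (g x) := by
                refine Finset.prod_biUnion ?_
                intro p _ p' _ hne
                refine Finset.disjoint_left.2 fun x hx hx' => hne ?_
                exact Option.some.inj ((hCmem p x hx).2.symm.trans (hCmem p' x hx').2)
            _ = _ := by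
                rw [← Finset.prod_coe_sort Pa]
                refine Finset.prod_congr rfl fun p _ => ?_
                rw [← Finset.prod_coe_sort (C p), ← (e p).prod_comp]
        have hsub : ∀ g ∈ F, enc g ∈ A₁ ×ˢ A₂ := by
          intro g hg
          obtain ⟨hg, hgf⟩ := Finset.mem_filter.1 hg
          obtain ⟨-, h2, h3, hl⟩ := (Finset.mem_filter.1 hg).2
          refine Finset.mem_product.2 ⟨Fintype.mem_piFinset.2 fun x => Finset.mem_filter.2
              ⟨Finset.mem_univ _, ?_⟩,
            Fintype.mem_piFinset.2 fun p => Finset.mem_filter.2 ⟨Finset.mem_filter.2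
              ⟨Fintype.mem_piFinset.2 fun i => ?_, ?_⟩, fun i => ?_⟩⟩
          · obtain ⟨hxLy, hxn⟩ := Finset.mem_filter.1 x.2
            have hxj := (Finset.mem_filter.1 hxLy).2
            exact (hl x.1 (by omega)).1 hxn
          rotate_left 2
          · have hi := (hCmem p _ (e p i).2).1
            exact (hl (e p i).1 (by omega)).2
          · obtain ⟨h4, h5⟩ := hCmem p _ (e p i).2
            have hp : δ p.1 + 1 = j := (Finset.mem_filter.1 p.2).2
            have h6 : f p = g p := by rw [← hgf]; simp only [hrs, if_pos (show δ p.1 < j by omega)]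
            refine Finset.mem_filter.2 ⟨Finset.mem_univ _, ?_⟩
            rw [h6]
            exact h3 _ _ (by omega) h5
          · intro a b hab
            have ha := (hCmem p _ (e p a).2).1
            have hb := (hCmem p _ (e p b).2).1
            exact (e p).injective (Subtype.ext (h2 _ _ (by omega) (by omega) hab))
        have hinj : Set.InjOn enc (F : Set (ι → Fin n)) := by
          intro g hg g' hg' h
          obtain ⟨hg, hgf⟩ := Finset.mem_filter.1 hg
          obtain ⟨hg', hgf'⟩ := Finset.mem_filter.1 hg'
          funext x
          rcases lt_trichotomy (δ x) j with hx | hx | hx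
          · have := congrFun (hgf.trans hgf'.symm) x
            simpa only [hrs, if_pos hx] using this
          · rcases hpx : π x with _ | p
            · exact congrFun (congrArg Prod.fst h) ⟨x, by simp [hLr, hLy, hx, hpx]⟩
            · have hp := hπ x p hpx
              have hxC : x ∈ C p := by simp [hC, hLc, hLy, hx, hpx]
              have := congrFun (congrFun (congrArg Prod.snd h)
                ⟨p, Finset.mem_filter.2 ⟨Finset.mem_univ _, by omega⟩⟩) ((e p).symm ⟨x, hxC⟩)
              simpa [henc] using this
          · rw [(Finset.mem_filter.1 hg).2.1 x hx, (Finset.mem_filter.1 hg').2.1 x hx]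
        have hw0 : ∀ z, 0 ≤ w z := fun z => mul_nonneg
          (Finset.prod_nonneg fun _ _ => hΦ0 _ _)
          (Finset.prod_nonneg fun _ _ => Finset.prod_nonneg fun _ _ => hΦ0 _ _)
        calc ∑ g ∈ F, ∏ x ∈ Ly, Φ kk (g x) = ∑ z ∈ F.image enc, w z := by
              rw [Finset.sum_image hinj]
              exact Finset.sum_congr rfl fun g _ => hprod g
          _ ≤ ∑ z ∈ A₁ ×ˢ A₂, w z := Finset.sum_le_sum_of_subset_of_nonneg
              (fun z hz => by obtain ⟨g, hg, rfl⟩ := Finset.mem_image.1 hz; exact hsub g hg)
              fun z _ _ => hw0 z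
          _ = (∑ a ∈ A₁, ∏ x : Lr, Φ kk (a x)) * ∑ b ∈ A₂, ∏ p : Pa, ∏ i, Φ kk (b p i) := by
              rw [Finset.sum_product, Finset.sum_mul_sum]
          _ ≤ (48 * (n : ℝ) * L ^ 3) ^ Lr.card *
                ∏ p : Pa, ((∏ x ∈ C p, wt x) * Φ (M - j) (f p)) := by
              refine mul_le_mul ?_ ?_ (Finset.sum_nonneg fun b _ => Finset.prod_nonneg fun _ _ =>
                Finset.prod_nonneg fun _ _ => hΦ0 _ _) (by positivity)
              · rw [hA₁, ← Finset.prod_univ_sum, Finset.prod_const, Finset.card_univ,
                  Fintype.card_coe]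
                refine pow_le_pow_left₀ (Finset.sum_nonneg fun u _ => hΦ0 _ _) ?_ _
                simp only [hΦ, ← Finset.mul_sum]
                rw [mul_comm (48 * (n : ℝ))]
                exact mul_le_mul_of_nonneg_left (hsum kk) (by positivity)
              · rw [hA₂, ← Finset.prod_univ_sum
                  (t := fun p : Pa => ((Fintype.piFinset fun _ : Fin (C p).card =>
                    chn par (f p)).filter Function.Injective).filter
                      (fun b => ∀ i, lab (b i) = σ (e p i)))
                  (f := fun _ π' => ∏ i, Φ kk (π' i))]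
                refine Finset.prod_le_prod (fun p _ => Finset.sum_nonneg fun _ _ =>
                  Finset.prod_nonneg fun _ _ => hΦ0 _ _) fun p _ => ?_
                have hst := step lab (chn par) (N := n) (fun u => (Finset.card_le_univ _).trans
                  (le_of_eq (Fintype.card_fin n))) hlam kk (f p) (C p).card
                set l : ℝ := ∏ i : Fin (C p).card, L ^ 3 * lam (σ (e p i)) with hl
                have hl0 : 0 ≤ l :=
                  Finset.prod_nonneg fun i _ => mul_nonneg (by positivity) (hlam _).le
                calc _ = ∑ b ∈ ((Fintype.piFinset fun _ : Fin (C p).card =>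
                        chn par (f p)).filter Function.Injective).filter
                          (fun b => ∀ i, lab (b i) = σ (e p i)),
                      l * ∏ i, pot lab (chn par) n lam kk (b i) / lam (lab (b i)) := by
                      refine Finset.sum_congr rfl fun b hb => ?_
                      rw [hl, ← Finset.prod_mul_distrib]
                      refine Finset.prod_congr rfl fun i _ => ?_
                      rw [(Finset.mem_filter.1 hb).2 i]
                      simp only [hΦ]
                      have := (hlam (σ (e p i))).ne'
                      field_simp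
                  _ ≤ l * (stepConst ^ (C p).card *
                        (L ^ 3 * pot lab (chn par) n lam (kk + 1) (f p))) := by
                      rw [← Finset.mul_sum]
                      refine mul_le_mul_of_nonneg_left (le_trans
                        (Finset.sum_le_sum_of_subset_of_nonneg (Finset.filter_subset _ _)
                          fun b _ _ => Finset.prod_nonneg fun i _ => div_nonneg
                            (pot_nonneg _ _ _ (fun l => (hlam l).le) _ _) (hlam _).le)
                        (le_trans (le_of_eq ?_) hst)) hl0
                      refine Finset.sum_congr (Finset.ext fun x => ?_) fun _ _ => rfl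
                      simp only [Finset.mem_filter, Fintype.mem_piFinset]
                  _ = _ := by
                      rw [hk1, hl, ← Finset.prod_coe_sort (C p), ← (e p).prod_comp]
                      simp only [hwt, hΦ, Finset.prod_mul_distrib, Finset.prod_const,
                        Finset.card_univ, Fintype.card_fin]
                      ring
          _ = _ := by
              rw [Finset.prod_mul_distrib,
                Finset.prod_coe_sort Pa (fun p => Φ (M - j) (f p))]
              have hsumC : ∏ p : Pa, ∏ x ∈ C p, wt x = ∏ x ∈ Lc, wt x := by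
                rw [Finset.prod_coe_sort Pa (fun p => ∏ x ∈ C p, wt x)]
                rw [← Finset.prod_biUnion]
                · refine Finset.prod_congr ?_ fun _ _ => rfl
                  ext x
                  constructor
                  · intro hx
                    obtain ⟨p, -, hp⟩ := Finset.mem_biUnion.1 hx
                    exact (Finset.mem_filter.1 hp).1
                  · intro hx
                    obtain ⟨hxLy, hxn⟩ := Finset.mem_filter.1 hx
                    obtain ⟨p, hp⟩ := Option.ne_none_iff_exists'.1 hxn
                    refine Finset.mem_biUnion.2 ⟨p, Finset.mem_filter.2 ⟨Finset.mem_univ _, ?_⟩,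
                      Finset.mem_filter.2 ⟨hx, hp⟩⟩
                    have h := (Finset.mem_filter.1 hxLy).2
                    have := hπ x p hp
                    omega
                · intro p _ p' _ hne
                  refine Finset.disjoint_left.2 fun x hx hx' => hne ?_
                  exact Option.some.inj ((hCmem p x hx).2.symm.trans (hCmem p' x hx').2)
              rw [hsumC]
              ring
      have hR' : (R (j + 1)).card = (R j).card + Lr.card := by
        rw [← Finset.card_union_of_disjoint]
        · congr 1
          ext x
          simp only [hR, hLr, hLy, Finset.mem_union, Finset.mem_filter, Finset.mem_univ, true_and]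
          constructor
          · rintro ⟨h1, h2⟩
            rcases Nat.lt_succ_iff_lt_or_eq.1 h2 with h | h
            · exact Or.inl ⟨h1, h⟩
            · exact Or.inr ⟨h, h1⟩
          · rintro (⟨h1, h2⟩ | ⟨h1, h2⟩)
            · exact ⟨h1, by omega⟩
            · exact ⟨h2, by omega⟩
        · refine Finset.disjoint_left.2 fun x hx hx' => ?_
          simp only [hR, hLr, hLy, Finset.mem_filter, Finset.mem_univ, true_and] at hx hx'
          omega
      have hS' : ∏ x ∈ Sn (j + 1), wt x = (∏ x ∈ Sn j, wt x) * ∏ x ∈ Lc, wt x := by
        rw [← Finset.prod_union]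
        · refine Finset.prod_congr ?_ fun _ _ => rfl
          ext x
          simp only [hSn, hLc, hLy, Finset.mem_union, Finset.mem_filter, Finset.mem_univ, true_and]
          constructor
          · rintro ⟨h1, h2⟩
            rcases Nat.lt_succ_iff_lt_or_eq.1 h2 with h | h
            · exact Or.inl ⟨h1, h⟩
            · exact Or.inr ⟨h, h1⟩
          · rintro (⟨h1, h2⟩ | ⟨h1, h2⟩)
            · exact ⟨h1, by omega⟩
            · exact ⟨h2, by omega⟩
        · refine Finset.disjoint_left.2 fun x hx hx' => ?_
          simp only [hSn, hLc, hLy, Finset.mem_filter, Finset.mem_univ, true_and] at hx hx'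
          omega
      simp only [hNf] at ih ⊢
      rw [← Finset.sum_fiberwise_of_maps_to hmaps, ← hkk]
      refine (Finset.sum_le_sum hfibre).trans ?_
      rw [← Finset.mul_sum, hR', hS', pow_add]
      refine (mul_le_mul_of_nonneg_left ih (mul_nonneg (Finset.prod_nonneg fun x _ => hwt0 x)
        (by positivity))).trans (le_of_eq ?_)
      ring
  have h := key M le_rfl
  have hRM : R M = Finset.univ.filter fun x => π x = none := by
    simp only [hR, hδ, and_true]
  have hSM : Sn M = Finset.univ.filter fun x => π x ≠ none := by
    simp only [hSn, hδ, and_true]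
  rw [hRM, hSM] at h
  refine le_trans (le_of_eq ?_) h
  have hone : L ^ 3 * (L⁻¹) ^ 3 = 1 := by rw [← mul_pow, mul_inv_cancel₀ hL.ne', one_pow]
  simp only [hNf, Nat.sub_self, hΦ, pot_zero, ← hLdef, hone, Finset.prod_const_one, Finset.sum_const,
    nsmul_eq_mul, mul_one]
  congr 1
  congr 1
  ext f
  simp only [adm, Finset.mem_filter, Finset.mem_univ, true_and]
  constructor
  · rintro ⟨h1, h2, h3⟩
    exact ⟨fun x hx => absurd (hδ x) (not_lt.2 hx), fun x y _ _ hxy => h1 hxy,
      fun x y _ => h2 x y, fun x _ => h3 x⟩
  · rintro ⟨-, h2, h3, h4⟩
    exact ⟨fun x y hxy => h2 x y (hδ x) (hδ y) hxy, fun x y => h3 x y (hδ x), fun x => h4 x (hδ x)⟩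

end Vale.Agent.P064.Tree
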