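import Vale.Agent.P064.Tree.Comb

/-! Symmetric witness types of the vertices of a labelled rooted forest. -/

namespace Vale.Agent.P064.Tree

open Finset
open scoped Classical

variable {Lab : Type} [Fintype Lab]

variable (Lab) in
/-- Witness types of height at most `k`: a label and pieces of children. -/
@[reducible] def Ty : ℕ → Type
  | 0 => Lab
  | k + 1 => Lab × Finset (Ty k × ℕ)

/-- The label of a type. -/
def labOf : (k : ℕ) → Ty Lab k → Lab
  | 0, T => T
  | _ + 1, T => T.1

variable (Lab) in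
/-- All types with multiplicities at most `N`. -/
noncomputable def univT (N : ℕ) : (k : ℕ) → Finset (Ty Lab k)
  | 0 => (Finset.univ : Finset Lab)
  | k + 1 => (Finset.univ : Finset Lab) ×ˢ ((univT N k) ×ˢ Finset.Icc 1 N).powerset

/-- Code weight of a type. -/
noncomputable def pw : (k : ℕ) → Ty Lab k → ℝ
  | 0, _ => (Fintype.card Lab : ℝ)⁻¹
  | k + 1, T => (Fintype.card Lab : ℝ)⁻¹ * ((T.2.card.factorial : ℝ) *
      ∏ a ∈ T.2, pw k a.1 * (1 / 8 : ℝ) ^ a.2)

/-- Automorphism weight of a type. -/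
noncomputable def vw (lam : Lab → ℝ) : (k : ℕ) → Ty Lab k → ℝ
  | 0, _ => 1
  | k + 1, T => ∏ a ∈ T.2, (a.2.factorial : ℝ) * (vw lam k a.1 / lam (labOf k a.1)) ^ a.2

variable {β : Type*}

/-- The vertex `u` has the label and disjoint pieces of children realising the type. -/
def Has (lab : β → Lab) (ch : β → Finset β) : (k : ℕ) → Ty Lab k → β → Prop
  | 0, T, u => lab u = T
  | k + 1, T, u => lab u = T.1 ∧ ∃ Q : Ty Lab k × ℕ → Finset β,
      (∀ a ∈ T.2, Q a ⊆ ch u ∧ (Q a).card = a.2 ∧ ∀ y ∈ Q a, Has lab ch k a.1 y) ∧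
      Set.PairwiseDisjoint (↑T.2 : Set (Ty Lab k × ℕ)) Q

lemma Has.lab_eq {lab : β → Lab} {ch : β → Finset β} : ∀ {k : ℕ} {T : Ty Lab k} {u : β},
    Has lab ch k T u → lab u = labOf k T
  | 0, _, _, h => h
  | _ + 1, _, _, h => h.1

lemma pw_nonneg : ∀ (k : ℕ) (T : Ty Lab k), 0 ≤ pw k T
  | 0, _ => by simp [pw]
  | k + 1, T => by
    rw [pw]
    exact mul_nonneg (by positivity) (mul_nonneg (Nat.cast_nonneg _)
      (Finset.prod_nonneg fun a _ => mul_nonneg (pw_nonneg k a.1) (by positivity)))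

lemma vw_nonneg {lam : Lab → ℝ} (hlam : ∀ l, 0 ≤ lam l) : ∀ (k : ℕ) (T : Ty Lab k), 0 ≤ vw lam k T
  | 0, _ => by simp [vw]
  | k + 1, T => by
    rw [vw]
    exact Finset.prod_nonneg fun a _ => mul_nonneg (Nat.cast_nonneg _)
      (pow_nonneg (div_nonneg (vw_nonneg hlam k a.1) (hlam _)) _)

lemma geom_le {x : ℝ} (hx : 0 ≤ x) (hx1 : x ≤ 2 / 7) (M : ℕ) :
    ∑ m ∈ Finset.range M, x ^ m ≤ 7 / 5 := by
  induction M with
  | zero => simp; norm_num
  | succ M ih =>
    rw [Finset.sum_range_succ']
    simp only [pow_succ, pow_zero, ← Finset.sum_mul]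
    have : 0 ≤ ∑ m ∈ Finset.range M, x ^ m := Finset.sum_nonneg fun m _ => pow_nonneg hx m
    nlinarith

lemma geom_eighth (N : ℕ) : ∑ D ∈ Finset.Icc 1 N, (1 / 8 : ℝ) ^ D ≤ 1 / 7 := by
  have h : ∀ M : ℕ, ∑ m ∈ Finset.range M, (1 / 8 : ℝ) ^ (m + 1) ≤ 1 / 7 := by
    intro M
    induction M with
    | zero => simp
    | succ M ih =>
      rw [Finset.sum_range_succ']
      simp only [pow_succ _ (_ + 1), ← Finset.sum_mul]
      linarith
  refine le_trans (le_of_eq ?_) (h N)
  refine Finset.sum_bij' (fun D _ => D - 1) (fun m _ => m + 1) ?_ ?_ ?_ ?_ ?_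
  · intro D hD; rw [Finset.mem_Icc] at hD; rw [Finset.mem_range]; omega
  · intro m hm; rw [Finset.mem_range] at hm; rw [Finset.mem_Icc]; omega
  · intro D hD; rw [Finset.mem_Icc] at hD; show D - 1 + 1 = D; omega
  · intro m _; show m + 1 - 1 = m; omega
  · intro D hD; rw [Finset.mem_Icc] at hD; congr 1; omega

lemma pw_sum_le (N : ℕ) [Nonempty Lab] : ∀ k : ℕ, ∑ T ∈ univT Lab N k, pw k T ≤ 2
  | 0 => by
    have h : (0 : ℝ) < Fintype.card Lab := by exact_mod_cast Fintype.card_pos
    simp only [univT, pw, Finset.sum_const, Finset.card_univ, nsmul_eq_mul]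
    rw [mul_inv_cancel₀ h.ne']
    norm_num
  | k + 1 => by
    have ih := pw_sum_le N k
    have h : (0 : ℝ) < Fintype.card Lab := by exact_mod_cast Fintype.card_pos
    set X : Finset (Ty Lab k × ℕ) := (univT Lab N k) ×ˢ Finset.Icc 1 N with hX
    set w : Ty Lab k × ℕ → ℝ := fun a => pw k a.1 * (1 / 8 : ℝ) ^ a.2 with hw
    have hw0 : ∀ a ∈ X, 0 ≤ w a := fun a _ =>
      mul_nonneg (pw_nonneg k _) (by positivity)
    have hW0 : 0 ≤ ∑ a ∈ X, w a := Finset.sum_nonneg hw0
    have hW : ∑ a ∈ X, w a ≤ 2 / 7 := by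
      simp only [hX, hw, Finset.sum_product, ← Finset.mul_sum, ← Finset.sum_mul]
      refine (mul_le_mul ih (geom_eighth N) (Finset.sum_nonneg fun _ _ => by positivity)
        (by norm_num)).trans (by norm_num)
    have hsum : ∑ T ∈ X.powerset, (T.card.factorial : ℝ) * ∏ a ∈ T, w a ≤ 2 := by
      rw [Finset.sum_powerset]
      refine le_trans (Finset.sum_le_sum (g := fun m => (∑ a ∈ X, w a) ^ m) fun m _ => ?_)
        ((geom_le hW0 hW _).trans (by norm_num))
      refine le_trans (le_of_eq ?_) (factorial_esymm_le X w hw0 m)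
      rw [Finset.mul_sum]
      exact Finset.sum_congr rfl fun T hT => by rw [(Finset.mem_powersetCard.1 hT).2]
    simp only [univT, ← hX, Finset.sum_product, pw, ← Finset.mul_sum]
    simp only [hw] at hsum
    rw [Finset.sum_const, Finset.card_univ, nsmul_eq_mul, ← mul_assoc, inv_mul_cancel₀ h.ne',
      one_mul]
    exact hsum

lemma pow_self_le (D : ℕ) : (D : ℝ) ^ D ≤ 3 ^ D * (D.factorial : ℝ) := by
  have hb := Real.pow_div_factorial_le_exp (D : ℝ) (Nat.cast_nonneg D) D
  have hexp : Real.exp (D : ℝ) ≤ (3 : ℝ) ^ D := by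
    rw [← mul_one (D : ℝ), Real.exp_nat_mul]
    exact pow_le_pow_left₀ (Real.exp_pos 1).le (by linarith [Real.exp_one_lt_d9]) D
  exact (div_le_iff₀ (by positivity)).1 (hb.trans hexp)

lemma sum_cube_le {α : Type*} (s : Finset α) (f : α → ℝ) (hf : ∀ x ∈ s, 0 ≤ f x) :
    ∑ x ∈ s, f x ^ 3 ≤ (∑ x ∈ s, f x) ^ 3 := by
  have hS : 0 ≤ ∑ x ∈ s, f x := Finset.sum_nonneg hf
  calc ∑ x ∈ s, f x ^ 3 ≤ ∑ x ∈ s, (∑ x ∈ s, f x) ^ 2 * f x := by
        refine Finset.sum_le_sum fun x hx => ?_
        rw [pow_succ]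
        exact mul_le_mul_of_nonneg_right
          (pow_le_pow_left₀ (hf x hx) (Finset.single_le_sum hf hx) 2) (hf x hx)
    _ = _ := by rw [← Finset.mul_sum, ← pow_succ]

/-- The potential of a vertex: all witnesses, weighted. -/
noncomputable def pot (lab : β → Lab) (ch : β → Finset β) (N : ℕ) (lam : Lab → ℝ) (k : ℕ)
    (u : β) : ℝ :=
  ∑ T ∈ univT Lab N k, if Has lab ch k T u then pw k T ^ 3 * vw lam k T else 0

lemma pot_nonneg (lab : β → Lab) (ch : β → Finset β) (N : ℕ) {lam : Lab → ℝ}
    (hlam : ∀ l, 0 ≤ lam l) (k : ℕ) (u : β) : 0 ≤ pot lab ch N lam k u :=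
  Finset.sum_nonneg fun T _ => by
    split
    · exact mul_nonneg (pow_nonneg (pw_nonneg k T) 3) (vw_nonneg hlam k T)
    · exact le_rfl

lemma pot_zero (lab : β → Lab) (ch : β → Finset β) (N : ℕ) (lam : Lab → ℝ) (u : β) :
    pot lab ch N lam 0 u = ((Fintype.card Lab : ℝ)⁻¹) ^ 3 := by
  simp [pot, univT, Has, pw, vw]

/-- The constant lost per child. -/
noncomputable def stepConst : ℝ := 2 * 3072 * 27 * 8 * 64

lemma stepConst_pos : 0 < stepConst := by unfold stepConst; norm_num

theorem step [Nonempty Lab] (lab : β → Lab) (ch : β → Finset β) {N : ℕ}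
    (hN : ∀ u, (ch u).card ≤ N) {lam : Lab → ℝ} (hlam : ∀ l, 0 < lam l)
    (k : ℕ) (u : β) (t : ℕ) :
    ∑ π ∈ (Fintype.piFinset fun _ : Fin t => ch u).filter Function.Injective,
        ∏ i, pot lab ch N lam k (π i) / lam (lab (π i)) ≤
      stepConst ^ t * ((Fintype.card Lab : ℝ) ^ 3 * pot lab ch N lam (k + 1) u) := by
  set A : ℝ := 3072 with hA
  set X := univT Lab N k with hX
  set p : Ty Lab k → ℝ := pw k with hp
  set z : Ty Lab k → ℝ := fun a => vw lam k a / lam (labOf k a) with hzdef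
  set D : Ty Lab k → Finset β := fun a => (ch u).filter (Has lab ch k a) with hD
  set Inj := (Fintype.piFinset fun _ : Fin t => ch u).filter Function.Injective with hInj
  have hp0 : ∀ a, 0 ≤ p a := pw_nonneg k
  have hz0 : ∀ a, 0 ≤ z a := fun a => div_nonneg (vw_nonneg (fun l => (hlam l).le) k a) (hlam _).le
  set F : (Fin t → Ty Lab k) → ℝ := fun c => (∏ i, p (c i)) ^ 3 *
    ((((Fintype.piFinset fun i => D (c i)).filter Function.Injective).card : ℝ) * ∏ i, z (c i))
    with hF
  have hexpand : ∑ π ∈ Inj, ∏ i, pot lab ch N lam k (π i) / lam (lab (π i)) =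
      ∑ c ∈ Fintype.piFinset (fun _ : Fin t => X), F c := by
    have h1 : ∀ π : Fin t → β, ∏ i, pot lab ch N lam k (π i) / lam (lab (π i)) =
        ∑ c ∈ Fintype.piFinset (fun _ : Fin t => X),
          if (∀ i, Has lab ch k (c i) (π i)) then ∏ i, p (c i) ^ 3 * z (c i) else 0 := by
      intro π
      simp only [pot, Finset.sum_div]
      rw [Finset.prod_univ_sum]
      refine Finset.sum_congr rfl fun c _ => ?_
      by_cases h : ∀ i, Has lab ch k (c i) (π i)
      · rw [if_pos h]
        exact Finset.prod_congr rfl fun i _ => by rw [if_pos (h i), mul_div_assoc, (h i).lab_eq]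
      · rw [if_neg h]
        push Not at h
        obtain ⟨i, hi⟩ := h
        exact Finset.prod_eq_zero (Finset.mem_univ i) (by rw [if_neg hi, zero_div])
    simp only [h1]
    rw [Finset.sum_comm]
    refine Finset.sum_congr rfl fun c _ => ?_
    rw [← Finset.sum_filter, Finset.sum_const, nsmul_eq_mul, hF, Finset.prod_mul_distrib,
      Finset.prod_pow]
    have : (Inj.filter fun π => ∀ i, Has lab ch k (c i) (π i)) =
        (Fintype.piFinset fun i => D (c i)).filter Function.Injective := by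
      ext π
      simp only [hInj, hD, Finset.mem_filter, Fintype.mem_piFinset]
      constructor
      · rintro ⟨⟨a, b⟩, h⟩; exact ⟨fun i => ⟨a i, h i⟩, b⟩
      · rintro ⟨a, b⟩; exact ⟨⟨fun i => (a i).1, b⟩, fun i => (a i).2⟩
    rw [this]
    ring
  rw [hexpand]
  set Ks := X.powerset.filter fun K : Finset (Ty Lab k) => K.card ≤ t with hKs
  have hmaps : ∀ c ∈ Fintype.piFinset (fun _ : Fin t => X), Finset.univ.image c ∈ Ks := fun c hc =>
    Finset.mem_filter.2 ⟨Finset.mem_powerset.2 fun a ha => by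
      obtain ⟨i, -, rfl⟩ := Finset.mem_image.1 ha
      exact Fintype.mem_piFinset.1 hc i, Finset.card_image_le.trans (by simp)⟩
  rw [← Finset.sum_fiberwise_of_maps_to hmaps]
  have hgreedy : ∀ K : Finset (Ty Lab k), ∃ P : Ty Lab k → Finset β, (∀ a, P a ⊆ D a) ∧
      (K : Set (Ty Lab k)).PairwiseDisjoint P ∧
      (∀ a ∈ K, (P a).Nonempty → A ≤ z a * (P a).card) ∧
      (∀ a ∈ K, z a * (D a \ K.biUnion P).card ≤ A) ∧
      (∀ a ∈ K, ∀ R ⊆ D a, R ⊆ K.biUnion P →
        (R.card.factorial : ℝ) * z a ^ R.card ≤ ∏ y ∈ R, gOf K z P y) := fun K =>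
    greedy_aux (by rw [hA]; norm_num) K z (fun a _ => hz0 a) _ D le_rfl
  choose P hPD hPd hPA hPout hPR using hgreedy
  set kept : Finset (Ty Lab k) → Finset (Ty Lab k) := fun K => K.filter fun a => (P K a).Nonempty
    with hkept
  set tp : Finset (Ty Lab k) → Ty Lab (k + 1) := fun K =>
    (lab u, (kept K).image fun a => (a, (P K a).card)) with htp
  set G : Ty Lab (k + 1) → ℝ := fun T =>
    if Has lab ch (k + 1) T u then pw (k + 1) T ^ 3 * vw lam (k + 1) T else 0 with hG
  set extra : Finset (Ty Lab k) → ℝ := fun E => (E.card.factorial : ℝ) * ∏ a ∈ E, p a with hextra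
  have hG0 : ∀ T, 0 ≤ G T := fun T => by
    simp only [hG]
    split
    · exact mul_nonneg (pow_nonneg (pw_nonneg _ T) 3) (vw_nonneg (fun l => (hlam l).le) _ T)
    · exact le_rfl
  have hex0 : ∀ E, 0 ≤ extra E := fun E =>
    mul_nonneg (Nat.cast_nonneg _) (Finset.prod_nonneg fun a _ => hp0 a)
  have htpmem : ∀ K ∈ Ks, tp K ∈ univT Lab N (k + 1) := by
    intro K hK
    rw [univT]
    refine Finset.mem_product.2 ⟨Finset.mem_univ _, Finset.mem_powerset.2 ?_⟩
    intro x hx
    obtain ⟨a, ha, rfl⟩ := Finset.mem_image.1 hx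
    obtain ⟨haK, hane⟩ := Finset.mem_filter.1 ha
    exact Finset.mem_product.2 ⟨Finset.mem_powerset.1 (Finset.mem_filter.1 hK).1 haK,
      Finset.mem_Icc.2 ⟨hane.card_pos,
        (Finset.card_le_card ((hPD K a).trans (Finset.filter_subset _ _))).trans (hN u)⟩⟩
  have htpHas : ∀ K, Has lab ch (k + 1) (tp K) u := by
    intro K
    rw [Has]
    refine ⟨rfl, fun x => P K x.1, ?_, ?_⟩
    · intro x hx
      obtain ⟨a, ha, rfl⟩ := Finset.mem_image.1 hx
      exact ⟨(hPD K a).trans (Finset.filter_subset _ _), rfl,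
        fun y hy => (Finset.mem_filter.1 (hPD K a hy)).2⟩
    · intro x hx y hy hxy
      obtain ⟨a, ha, rfl⟩ := Finset.mem_image.1 hx
      obtain ⟨b, hb, rfl⟩ := Finset.mem_image.1 hy
      exact hPd K (Finset.mem_filter.1 ha).1 (Finset.mem_filter.1 hb).1 (fun h => hxy (by rw [h]))
  have hmain : ∀ K ∈ Ks, ∑ c ∈ (Fintype.piFinset fun _ : Fin t => X).filter
      (fun c => Finset.univ.image c = K), F c ≤
      (2 * A * 27 * 8) ^ t * ((Fintype.card Lab : ℝ) ^ 3 * G (tp K) * extra (K \ kept K) ^ 3) := by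
    intro K hK
    obtain ⟨hKX, hKt⟩ := Finset.mem_filter.1 hK
    rw [Finset.mem_powerset] at hKX
    set S := (Fintype.piFinset fun _ : Fin t => X).filter (fun c => Finset.univ.image c = K)
      with hS
    set S' := (Fintype.piFinset fun _ : Fin t => K).filter (fun c => Finset.univ.image c = K)
      with hS'
    have hSS : ∀ c : Fin t → Ty Lab k, Finset.univ.image c = K → c ∈ S' := fun c hc =>
      Finset.mem_filter.2 ⟨Fintype.mem_piFinset.2 fun i =>
        hc ▸ Finset.mem_image_of_mem c (Finset.mem_univ i), hc⟩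
    set W := ontoW p t K with hW
    have hW' : W = ∑ c ∈ S', ∏ i, p (c i) := rfl
    have hWle := ontoW_le p t K (fun a _ => hp0 a)
      ((Finset.sum_le_sum_of_subset_of_nonneg hKX fun a _ _ => hp0 a).trans (pw_sum_le N k))
    set U := K.biUnion (P K) with hU
    set V := ∏ y ∈ U, (2 * gOf K z (P K) y / A) with hV
    have hgA : ∀ y ∈ U, A ≤ gOf K z (P K) y := by
      intro y hy
      obtain ⟨a, ha, hya⟩ := Finset.mem_biUnion.1 hy
      rw [gOf_eq (hPd K) ha hya]
      exact hPA K a ha ⟨y, hya⟩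
    have hApos : 0 < A := by rw [hA]; norm_num
    have hV0 : 0 ≤ V := Finset.prod_nonneg fun y hy =>
      div_nonneg (by linarith [hgA y hy]) hApos.le
    have hc : ∀ c ∈ S, F c ≤ (2 * A) ^ t * V * (W * W) * ∏ i, p (c i) := by
      intro c hc
      have hcK := (Finset.mem_filter.1 hc).2
      have hci : ∀ i, c i ∈ K := fun i => hcK ▸ Finset.mem_image_of_mem c (Finset.mem_univ i)
      have hpc := place_count c D z U (gOf K z (P K)) hApos (fun i => hz0 _) hgA
        (fun i => hPout K _ (hci i)) (fun i => hPR K _ (hci i))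
      rw [Fintype.card_fin] at hpc
      have hP0 : 0 ≤ ∏ i, p (c i) := Finset.prod_nonneg fun i _ => hp0 _
      have hW1 : ∏ i, p (c i) ≤ W := by
        rw [hW']
        exact Finset.single_le_sum (f := fun c : Fin t → Ty Lab k => ∏ i, p (c i))
          (fun c _ => Finset.prod_nonneg fun i _ => hp0 _) (hSS c hcK)
      have hW2 : ((mult c).card : ℝ) * ∏ i, p (c i) ≤ W := by
        rw [hW', ← nsmul_eq_mul, ← Finset.sum_const]
        refine le_trans (le_of_eq (Finset.sum_congr rfl fun c' hc' => ?_))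
          (Finset.sum_le_sum_of_subset_of_nonneg (f := fun c : Fin t → Ty Lab k => ∏ i, p (c i)) ?_
            fun c _ _ => Finset.prod_nonneg fun i _ => hp0 _)
        · obtain ⟨σ, -, rfl⟩ := Finset.mem_image.1 hc'
          exact (Equiv.prod_comp σ fun i => p (c i)).symm
        · intro c' hc'
          obtain ⟨σ, -, rfl⟩ := Finset.mem_image.1 hc'
          refine hSS _ ?_
          rw [← Finset.image_image, Finset.image_univ_equiv, hcK]
      calc F c ≤ (∏ i, p (c i)) ^ 3 * ((2 * A) ^ t * ((mult c).card : ℝ) * V) := by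
            refine mul_le_mul_of_nonneg_left ?_ (pow_nonneg hP0 3)
            refine le_trans (le_of_eq ?_) hpc
            congr 2
            refine congrArg Finset.card (Finset.ext fun x => ?_)
            simp only [Finset.mem_filter, Fintype.mem_piFinset]
        _ = (2 * A) ^ t * V * ((((mult c).card : ℝ) * ∏ i, p (c i)) * ∏ i, p (c i)) *
              ∏ i, p (c i) := by ring
        _ ≤ _ := by
            have : 0 ≤ W := hP0.trans hW1
            gcongr
    have hsum : ∑ c ∈ S, F c ≤ (2 * A) ^ t * V * (W * W) * W := by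
      refine (Finset.sum_le_sum hc).trans ?_
      rw [← Finset.mul_sum]
      refine mul_le_mul_of_nonneg_left ?_ (mul_nonneg (mul_nonneg (by positivity) hV0)
        (mul_self_nonneg W))
      rw [hW']
      exact Finset.sum_le_sum_of_subset_of_nonneg (fun c hc => hSS c (Finset.mem_filter.1 hc).2)
        fun c _ _ => Finset.prod_nonneg fun i _ => hp0 _
    set M := kept K with hM
    have hMK : M ⊆ K := Finset.filter_subset _ _
    set E := K \ M with hE
    set B := (M.card.factorial : ℝ) * ∏ a ∈ M, p a with hB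
    have hB0 : 0 ≤ B := mul_nonneg (Nat.cast_nonneg _) (Finset.prod_nonneg fun a _ => hp0 a)
    have hsplit : (K.card.factorial : ℝ) * ∏ a ∈ K, p a ≤ 2 ^ t * (B * extra E) := by
      have hcard : K.card = E.card + M.card := (Finset.card_sdiff_add_card_eq_card hMK).symm
      have hch : (K.card.choose M.card : ℝ) ≤ 2 ^ t := by
        exact_mod_cast (Nat.choose_le_two_pow _ _).trans (Nat.pow_le_pow_right (by norm_num) hKt)
      have hfac : (K.card.factorial : ℝ) =
          (K.card.choose M.card : ℝ) * (M.card.factorial : ℝ) * (E.card.factorial : ℝ) := by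
        have h := Nat.choose_mul_factorial_mul_factorial (n := K.card) (k := M.card) (by omega)
        rw [show K.card - M.card = E.card by omega] at h
        exact_mod_cast h.symm
      rw [hfac, ← Finset.prod_sdiff hMK, hB, hextra]
      calc _ = (K.card.choose M.card : ℝ) * (((M.card.factorial : ℝ) * ∏ a ∈ M, p a) *
            ((E.card.factorial : ℝ) * ∏ a ∈ E, p a)) := by rw [hE]; ring
        _ ≤ _ := mul_le_mul_of_nonneg_right hch (mul_nonneg hB0 (hex0 E))
    have hW3 : W ^ 3 ≤ (27 * 8) ^ t * (B ^ 3 * extra E ^ 3) := by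
      have hW0 : 0 ≤ W := Finset.sum_nonneg fun c _ => Finset.prod_nonneg fun i _ => hp0 _
      refine (pow_le_pow_left₀ hW0 (hWle.trans (mul_le_mul_of_nonneg_left hsplit (by positivity))) 3).trans
        (le_of_eq ?_)
      have h27 : ((3 : ℝ) ^ t) ^ 3 = 27 ^ t := by rw [← pow_mul, mul_comm, pow_mul]; norm_num
      have h8 : ((2 : ℝ) ^ t) ^ 3 = 8 ^ t := by rw [← pow_mul, mul_comm, pow_mul]; norm_num
      simp only [mul_pow, h27, h8]
      ring
    have hVle : V * B ^ 3 ≤ (Fintype.card Lab : ℝ) ^ 3 * G (tp K) := by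
      simp only [hG, if_pos (htpHas K)]
      have hinjf : Set.InjOn (fun a => (a, (P K a).card)) (M : Set (Ty Lab k)) :=
        fun a _ b _ h => (Prod.ext_iff.1 h).1
      have hpwT : (Fintype.card Lab : ℝ) * pw (k + 1) (tp K) = (M.card.factorial : ℝ) *
          ∏ a ∈ M, p a * (1 / 8 : ℝ) ^ (P K a).card := by
        rw [pw, htp]
        dsimp only
        rw [Finset.card_image_of_injOn hinjf, Finset.prod_image hinjf, ← mul_assoc,
          mul_inv_cancel₀ (Nat.cast_ne_zero.2 Fintype.card_ne_zero), one_mul]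
      have hvwT : vw lam (k + 1) (tp K) =
          ∏ a ∈ M, ((P K a).card.factorial : ℝ) * z a ^ (P K a).card := by
        rw [vw, htp]
        dsimp only
        rw [Finset.prod_image hinjf]
      have hVeq : V = ∏ a ∈ M, (2 * (z a * (P K a).card) / A) ^ (P K a).card := by
        rw [hV, hU, Finset.prod_biUnion (hPd K), hM, hkept, Finset.prod_filter]
        refine Finset.prod_congr rfl fun a ha => ?_
        rw [Finset.prod_congr rfl fun y hy => by rw [gOf_eq (hPd K) ha hy], Finset.prod_const]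
        split
        · rfl
        · rename_i h
          rw [Finset.not_nonempty_iff_eq_empty] at h
          simp [h]
      rw [← mul_assoc, ← mul_pow, hpwT, hvwT, hVeq, hB, mul_pow, mul_pow, Finset.prod_mul_distrib (f := p), mul_pow,
        ← Finset.prod_pow (f := fun a => (1 / 8 : ℝ) ^ (P K a).card)]
      have key : ∀ a ∈ M, (2 * (z a * (P K a).card) / A) ^ (P K a).card ≤
          ((1 / 8 : ℝ) ^ (P K a).card) ^ 3 * (((P K a).card.factorial : ℝ) * z a ^ (P K a).card) := by
        intro a _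
        have h1 := mul_le_mul_of_nonneg_right (pow_self_le (P K a).card)
          (pow_nonneg (div_nonneg (mul_nonneg zero_le_two (hz0 a)) hApos.le) (P K a).card)
        refine le_trans (le_of_eq ?_) (h1.trans (le_of_eq ?_))
        · rw [← mul_pow]; congr 1; ring
        · rw [← pow_mul, mul_comm (P K a).card 3, pow_mul, mul_comm _ (z a ^ _), ← mul_assoc,
            ← mul_pow, mul_right_comm, ← mul_pow]
          congr 2
          rw [hA]; ring
      calc (∏ a ∈ M, (2 * (z a * (P K a).card) / A) ^ (P K a).card) *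
            ((M.card.factorial : ℝ) ^ 3 * (∏ a ∈ M, p a) ^ 3)
          ≤ (∏ a ∈ M, ((1 / 8 : ℝ) ^ (P K a).card) ^ 3 *
              (((P K a).card.factorial : ℝ) * z a ^ (P K a).card)) *
            ((M.card.factorial : ℝ) ^ 3 * (∏ a ∈ M, p a) ^ 3) := by
            refine mul_le_mul_of_nonneg_right (Finset.prod_le_prod (fun a _ => pow_nonneg
              (div_nonneg (mul_nonneg zero_le_two (mul_nonneg (hz0 a) (Nat.cast_nonneg _))) hApos.le) _) key)
              (mul_nonneg (by positivity) (pow_nonneg (Finset.prod_nonneg fun a _ => hp0 a) 3))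
        _ = _ := by rw [Finset.prod_mul_distrib]; ring
    calc ∑ c ∈ S, F c ≤ (2 * A) ^ t * V * (W * W) * W := hsum
      _ = (2 * A) ^ t * V * W ^ 3 := by ring
      _ ≤ (2 * A) ^ t * V * ((27 * 8) ^ t * (B ^ 3 * extra E ^ 3)) :=
          mul_le_mul_of_nonneg_left hW3 (mul_nonneg (by positivity) hV0)
      _ = (2 * A * 27 * 8) ^ t * (V * B ^ 3 * extra E ^ 3) := by
          simp only [mul_pow]; ring
      _ ≤ _ := mul_le_mul_of_nonneg_left
          (mul_le_mul_of_nonneg_right hVle (pow_nonneg (hex0 E) 3)) (by positivity)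
  refine (Finset.sum_le_sum hmain).trans ?_
  simp only [mul_assoc ((Fintype.card Lab : ℝ) ^ 3), ← Finset.mul_sum]
  have hsub : ∑ K ∈ Ks, G (tp K) * extra (K \ kept K) ^ 3 ≤
      ∑ q ∈ univT Lab N (k + 1) ×ˢ Ks, G q.1 * extra q.2 ^ 3 := by
    rw [← Finset.sum_image (f := fun q : Ty Lab (k + 1) × Finset (Ty Lab k) => G q.1 * extra q.2 ^ 3)
      (g := fun K => ((tp K : Ty Lab (k + 1)), K \ kept K))]
    · refine Finset.sum_le_sum_of_subset_of_nonneg ?_ fun q _ _ =>
        mul_nonneg (hG0 _) (pow_nonneg (hex0 _) 3)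
      intro q hq
      obtain ⟨K, hK, rfl⟩ := Finset.mem_image.1 hq
      obtain ⟨hKX, hKt⟩ := Finset.mem_filter.1 hK
      exact Finset.mem_product.2 ⟨htpmem K hK, Finset.mem_filter.2
        ⟨Finset.mem_powerset.2 (Finset.sdiff_subset.trans (Finset.mem_powerset.1 hKX)),
          (Finset.card_le_card Finset.sdiff_subset).trans hKt⟩⟩
    · intro K _ K' _ h
      have h1 : tp K = tp K' := congrArg Prod.fst h
      have h2 : K \ kept K = K' \ kept K' := congrArg Prod.snd h
      have hk : ∀ L, kept L = (tp L).2.image Prod.fst := fun L => by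
        rw [htp]
        dsimp only
        rw [Finset.image_image]
        exact (Finset.image_id).symm
      have h3 : kept K = kept K' := by
        rw [hk K, hk K']; exact congrArg (fun T : Ty Lab (k + 1) => T.2.image Prod.fst) h1
      calc K = (K \ kept K) ∪ kept K :=
            (Finset.sdiff_union_of_subset (Finset.filter_subset _ K)).symm
        _ = (K' \ kept K') ∪ kept K' := by rw [h2, h3]
        _ = K' := Finset.sdiff_union_of_subset (Finset.filter_subset _ K')
  refine (mul_le_mul_of_nonneg_left (mul_le_mul_of_nonneg_left hsub (by positivity))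
    (by rw [hA]; positivity)).trans ?_
  rw [Finset.sum_product]
  simp only [← Finset.mul_sum, ← Finset.sum_mul]
  rw [
    show pot lab ch N lam (k + 1) u = ∑ T ∈ univT Lab N (k + 1), G T from rfl]
  have hexsum : ∑ E ∈ Ks, extra E ≤ 4 ^ t := by
    have hXw : ∑ a ∈ X, p a ≤ 2 := pw_sum_le N k
    calc ∑ E ∈ Ks, extra E = ∑ m ∈ Finset.range (t + 1),
          ∑ E ∈ Ks.filter (fun E => E.card = m), extra E :=
          (Finset.sum_fiberwise_of_maps_to (fun E hE => Finset.mem_range.2
            (Nat.lt_succ_of_le (Finset.mem_filter.1 hE).2)) _).symm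
      _ ≤ ∑ _m ∈ Finset.range (t + 1), (2 : ℝ) ^ t := by
          refine Finset.sum_le_sum fun m hm => ?_
          refine le_trans (b := (m.factorial : ℝ) * ∑ T ∈ X.powersetCard m, ∏ x ∈ T, p x) ?_
            (((factorial_esymm_le X p (fun a _ => hp0 a) m).trans
              (pow_le_pow_left₀ (Finset.sum_nonneg fun a _ => hp0 a) hXw m)).trans
              (pow_le_pow_right₀ (by norm_num) (Nat.le_of_lt_succ (Finset.mem_range.1 hm))))
          rw [Finset.mul_sum]
          refine le_trans (le_of_eq (Finset.sum_congr rfl fun E hE => ?_))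
            (Finset.sum_le_sum_of_subset_of_nonneg
              (f := fun E : Finset (Ty Lab k) => (m.factorial : ℝ) * ∏ x ∈ E, p x) ?_
              fun E _ _ => mul_nonneg (Nat.cast_nonneg _) (Finset.prod_nonneg fun a _ => hp0 a))
          · simp only [hextra, (Finset.mem_filter.1 hE).2]
          · intro E hE
            obtain ⟨h1, h2⟩ := Finset.mem_filter.1 hE
            exact Finset.mem_powersetCard.2
              ⟨Finset.mem_powerset.1 (Finset.mem_filter.1 h1).1, h2⟩
      _ ≤ 4 ^ t := by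
          rw [Finset.sum_const, Finset.card_range, nsmul_eq_mul,
            show (4 : ℝ) = 2 * 2 by norm_num, mul_pow]
          exact mul_le_mul_of_nonneg_right (by exact_mod_cast Nat.lt_two_pow_self (n := t))
            (by positivity)
  have h3 : ∑ E ∈ Ks, extra E ^ 3 ≤ 64 ^ t := by
    refine (sum_cube_le Ks extra fun E _ => hex0 E).trans
      ((pow_le_pow_left₀ (Finset.sum_nonneg fun E _ => hex0 E) hexsum 3).trans (le_of_eq ?_))
    rw [← pow_mul, mul_comm, pow_mul]; norm_num
  refine (mul_le_mul_of_nonneg_left (mul_le_mul_of_nonneg_left (mul_le_mul_of_nonneg_left h3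
    (Finset.sum_nonneg fun T _ => hG0 T)) (by positivity)) (by rw [hA]; positivity)).trans
    (le_of_eq ?_)
  rw [show stepConst = 2 * A * 27 * 8 * 64 from rfl, mul_pow _ (64 : ℝ)]
  ring

end Vale.Agent.P064.Tree
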